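import Vale.Agent.P021.ArithLarge
import Mathlib.NumberTheory.Zsqrtd.GaussianInt
import Mathlib.RingTheory.Ideal.Quotient.Operations

/-!
P021: closed forms of the moments in the Gaussian integers, and the congruence that gives the
positive moments their extra powers of two.
-/

namespace Vale.Agent.P021

open Polynomial Finset

noncomputable section

/-- The endpoint -1 + 2i. -/
def gEnd : GaussianInt := ⟨-1, 2⟩

/-- (28 + 4i) / 4. -/
def gW : GaussianInt := ⟨7, 1⟩

/-- (28 - 4i) / 4. -/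
def gWc : GaussianInt := ⟨7, -1⟩

/-- The prime 1 + i. -/
def gPi : GaussianInt := ⟨1, 1⟩

theorem gW_sq : gW ^ 2 = 14 * gW - 50 := by rw [gW]; decide

theorem gWc_sq : gWc ^ 2 = 14 * gWc - 50 := by rw [gWc]; decide

theorem ePos_eq : ∀ k, ePos k = 4 ^ k * ((gEnd * gW ^ k).im : ℚ)
  | 0 => by simp [ePos, gEnd]
  | 1 => by simp [ePos, gEnd, gW]; norm_num
  | k + 2 => by
    have h : gEnd * gW ^ (k + 2) = 14 * (gEnd * gW ^ (k + 1)) - 50 * (gEnd * gW ^ k) := by
      rw [pow_add, gW_sq]; ring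
    simp only [ePos, ePos_eq (k + 1), ePos_eq k, h, Zsqrtd.im_sub, Zsqrtd.im_mul, Zsqrtd.re_ofNat,
      Zsqrtd.im_ofNat]
    push_cast
    ring

theorem eNeg_eq : ∀ k, eNeg k = ((gEnd * gWc ^ k).im : ℚ) / 200 ^ k
  | 0 => by simp [eNeg, gEnd]
  | 1 => by simp [eNeg, gEnd, gWc]; norm_num
  | k + 2 => by
    have h : gEnd * gWc ^ (k + 2) = 14 * (gEnd * gWc ^ (k + 1)) - 50 * (gEnd * gWc ^ k) := by
      rw [pow_add, gWc_sq]; ring
    simp only [eNeg, eNeg_eq (k + 1), eNeg_eq k, h, Zsqrtd.im_sub, Zsqrtd.im_mul, Zsqrtd.re_ofNat,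
      Zsqrtd.im_ofNat]
    push_cast
    field_simp
    ring

/-- The homogenised partial sum of the series of (1 - 4x)^(-1/2). -/
def gSum : ℕ → GaussianInt
  | 0 => 1
  | k + 1 => 25 * gSum k + ((k + 1).centralBinom : GaussianInt) * gW ^ (k + 1)

theorem bPos_gauss (k : ℕ) : bPos k =
    2 * 4 ^ k * ((gEnd * gSum k).im : ℚ) / (((2 * k + 1) * k.centralBinom : ℕ) : ℚ) := by
  induction k with
  | zero => simp [bPos, gSum, gEnd]; norm_num
  | succ k ih =>
    have he : endVal ((k : ℤ) + 1) = ePos (k + 1) := by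
      rw [show ((k : ℤ) + 1) = Int.ofNat (k + 1) from by simp]; rfl
    have hg : gEnd * gSum (k + 1)
        = 25 * (gEnd * gSum k) + ((k + 1).centralBinom : GaussianInt) * (gEnd * gW ^ (k + 1)) := by
      rw [gSum]; ring
    have h := congrArg (fun x : ℕ => (x : ℚ)) (Nat.succ_mul_centralBinom_succ k)
    push_cast at h
    have h0 : (k.centralBinom : ℚ) ≠ 0 := by exact_mod_cast Nat.centralBinom_ne_zero k
    have h1 : ((k + 1).centralBinom : ℚ) ≠ 0 := by
      exact_mod_cast Nat.centralBinom_ne_zero (k + 1)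
    have hc : ((k + 1).centralBinom : ℚ) = 2 * (2 * k + 1) * k.centralBinom / (k + 1) := by
      field_simp
      linear_combination h
    simp only [bPos, ih, he, ePos_eq, hg, Zsqrtd.im_add, Zsqrtd.im_mul, Zsqrtd.re_ofNat,
      Zsqrtd.im_ofNat, Zsqrtd.re_natCast, Zsqrtd.im_natCast]
    push_cast
    rw [hc]
    field_simp
    ring

/-- The truncated series of (1 - 4x)^(-1/2). -/
def sqrtTrunc (k : ℕ) : ℤ[X] := ∑ i ∈ range (k + 1), monomial i (i.centralBinom : ℤ)

theorem sqrtTrunc_coeff (k j : ℕ) :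
    (sqrtTrunc k).coeff j = if j ≤ k then (j.centralBinom : ℤ) else 0 := by
  simp [sqrtTrunc, coeff_monomial]

theorem sqrtTrunc_dvd (k : ℕ) :
    X ^ (k + 1) ∣ sqrtTrunc k ^ 2 * (1 - C 4 * X) - 1 := by
  set H := sqrtTrunc k with hH
  set E := derivative H * (1 - C 4 * X) - C 2 * H with hE
  have hEk : X ^ k ∣ E := by
    rw [X_pow_dvd_iff]
    intro i hi
    have h := congrArg (fun x : ℕ => (x : ℤ)) (Nat.succ_mul_centralBinom_succ i)
    push_cast at h
    have hx : (derivative H * X).coeff i = (i : ℤ) * H.coeff i := by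
      rcases i with _ | i
      · simp
      · rw [coeff_mul_X, coeff_derivative]; push_cast; ring
    rw [hE, mul_sub, mul_one, coeff_sub, coeff_sub, coeff_C_mul,
      show derivative H * (C 4 * X) = C 4 * (derivative H * X) from by ring, coeff_C_mul, hx,
      coeff_derivative, hH, sqrtTrunc_coeff, sqrtTrunc_coeff, if_pos (by omega),
      if_pos (by omega)]
    linear_combination h
  have hD : derivative (H ^ 2 * (1 - C 4 * X)) = C 2 * H * E := by
    rw [hE, derivative_mul, derivative_pow, derivative_sub, derivative_one, derivative_C_mul,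
      derivative_X]
    simp only [Nat.cast_ofNat, Nat.add_one_sub_one, pow_one, mul_one, zero_sub]
    simp only [map_ofNat]
    ring
  rw [X_pow_dvd_iff]
  intro j hj
  rcases j with _ | j
  · simp [hH, coeff_zero_eq_eval_zero, sqrtTrunc, eval_finsetSum, zero_pow_eq,
      Finset.sum_ite_eq']
  · have h0 : (derivative (H ^ 2 * (1 - C 4 * X))).coeff j = 0 := by
      rw [hD]
      exact X_pow_dvd_iff.1 (hEk.mul_left (C 2 * H)) j (by omega)
    rw [coeff_derivative] at h0
    rw [coeff_sub, coeff_one, if_neg (by omega), sub_zero]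
    exact (mul_eq_zero.1 h0).resolve_right (by omega)

theorem gPi_dvd_two_pow (k : ℕ) : gPi ^ k ∣ (2 : GaussianInt) ^ k :=
  pow_dvd_pow_of_dvd ⟨⟨1, -1⟩, by rw [gPi]; decide⟩ k

theorem gSum_congr (k : ℕ) :
    gPi ^ (k + 1) ∣ (gEnd * gSum k - 5 * 25 ^ k) * (gEnd * gSum k + 5 * 25 ^ k) := by
  set φ := Ideal.Quotient.mk (Ideal.span {gPi ^ (k + 1)}) with hφ
  rw [← Ideal.mem_span_singleton, ← Ideal.Quotient.eq_zero_iff_mem, ← hφ]
  obtain ⟨t, s, hts⟩ :=
    (IsCoprime.pow_right (n := k + 1) (show IsCoprime (25 : ℤ) 2 from ⟨1, -12, by norm_num⟩))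
  have h2 : φ ((2 : GaussianInt) ^ (k + 1)) = 0 := by
    rw [hφ, Ideal.Quotient.eq_zero_iff_mem, Ideal.mem_span_singleton]
    exact gPi_dvd_two_pow _
  have ht : (φ (t : GaussianInt)) * 25 = 1 := by
    have h := congrArg (fun z : ℤ => φ (z : GaussianInt)) hts
    simpa [map_add, map_mul, map_pow, map_ofNat, ← map_pow φ, h2] using h
  set x := φ gW * φ (t : GaussianInt) with hx
  have hxk : x ^ (k + 1) = 0 := by
    rw [hx, mul_pow, ← map_pow]
    have : φ (gW ^ (k + 1)) = 0 := by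
      rw [hφ, Ideal.Quotient.eq_zero_iff_mem, Ideal.mem_span_singleton]
      exact pow_dvd_pow_of_dvd ⟨⟨4, -3⟩, by rw [gPi, gW]; decide⟩ _
    rw [this, zero_mul]
  have hsum : ∀ j, φ (gSum j) = 25 ^ j * ∑ i ∈ range (j + 1), (i.centralBinom : _) * x ^ i := by
    intro j
    induction j with
    | zero => simp [gSum]
    | succ j ih =>
      rw [gSum, map_add, map_mul, map_mul, ih, map_ofNat, map_natCast, map_pow,
        sum_range_succ _ (j + 1), mul_add, hx, mul_pow (φ gW)]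
      have : (25 : _) ^ (j + 1) * φ (t : GaussianInt) ^ (j + 1) = 1 := by
        rw [← mul_pow, mul_comm, ht, one_pow]
      linear_combination (-((j + 1).centralBinom : _) * φ gW ^ (j + 1)) * this
  obtain ⟨R, hR⟩ := sqrtTrunc_dvd k
  have hev := congrArg (aeval x) hR
  simp only [map_sub, map_mul, map_pow, map_one, aeval_X, hxk, zero_mul, map_ofNat,
    sqrtTrunc, map_sum, aeval_monomial, map_natCast] at hev
  have hz : φ gEnd ^ 2 = 25 - 4 * φ gW := by
    rw [← map_pow, show gEnd ^ 2 = 25 - 4 * gW from by rw [gEnd, gW]; decide]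
    simp [map_ofNat]
  rw [map_mul, map_sub, map_add, map_mul, map_mul, map_pow, map_ofNat, map_ofNat, hsum k]
  set T := ∑ i ∈ range (k + 1), (i.centralBinom : _) * x ^ i with hT
  linear_combination (25 ^ k * T) ^ 2 * hz + (25 : _) ^ (2 * k + 1) * hev
    + (4 * φ gW * (25 ^ k * T) ^ 2) * ht

theorem gPi_prime : Prime gPi := by
  refine UniqueFactorizationMonoid.irreducible_iff_prime.1 (irreducible_iff.2 ⟨?_, ?_⟩)
  · intro h
    have := (Zsqrtd.norm_eq_one_iff' (by norm_num) _).2 h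
    simp [gPi, Zsqrtd.norm] at this
  · intro a b h
    have hn : a.norm * b.norm = 2 := by
      rw [← Zsqrtd.norm_mul, ← h]; rfl
    have ha : a.norm = 1 ∨ b.norm = 1 := by
      have h0 := Zsqrtd.norm_nonneg (by norm_num : (-1 : ℤ) ≤ 0) a
      have h1 := Zsqrtd.norm_nonneg (by norm_num : (-1 : ℤ) ≤ 0) b
      have : a.norm ≤ 2 := Int.le_of_dvd (by norm_num) ⟨_, hn.symm⟩
      interval_cases a.norm <;> simp_all
    exact ha.imp (Zsqrtd.norm_eq_one_iff' (by norm_num) _).1
      (Zsqrtd.norm_eq_one_iff' (by norm_num) _).1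

theorem dvd_right_of_pow_not_dvd {a b : GaussianInt} : ∀ {j M : ℕ}, ¬ gPi ^ j ∣ a →
    gPi ^ (M + j) ∣ a * b → gPi ^ (M + 1) ∣ b := by
  intro j
  induction j generalizing a with
  | zero => intro M h; simp at h
  | succ j ih =>
    intro M h hab
    by_cases ha : gPi ∣ a
    · obtain ⟨c, rfl⟩ := ha
      refine ih (a := c) (fun hc => h ?_) ?_
      · rw [pow_succ']; exact mul_dvd_mul_left _ hc
      · rw [← add_assoc, pow_succ', mul_assoc] at hab
        exact (mul_dvd_mul_iff_left gPi_prime.ne_zero).1 hab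
    · exact (gPi_prime.pow_dvd_of_dvd_mul_left _ ha
        ((pow_dvd_pow _ (by omega)).trans hab))

theorem gSum_im_dvd (k : ℕ) : (2 : ℤ) ^ ((k - 1) / 2) ∣ (gEnd * gSum k).im := by
  rcases Nat.lt_or_ge k 2 with hk | hk
  · rw [show (k - 1) / 2 = 0 from by omega]; simp
  obtain ⟨c, hc⟩ : ∃ c : ℤ, gPi ^ (k - 1) ∣ gEnd * gSum k + (c : GaussianInt) := by
    have h := gSum_congr k
    rw [show k + 1 = (k - 2) + 3 from by omega] at h
    by_cases hA : gPi ^ 3 ∣ gEnd * gSum k - 5 * 25 ^ k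
    · refine ⟨-(5 * 25 ^ k), ?_⟩
      have hB : ¬ gPi ^ 3 ∣ gEnd * gSum k + 5 * 25 ^ k := fun hB => by
        have hd : gPi ^ 3 ∣ (((10 * 25 ^ k : ℕ) : ℤ) : GaussianInt) := by
          have := dvd_sub hB hA
          rwa [show (((10 * 25 ^ k : ℕ) : ℤ) : GaussianInt) = gEnd * gSum k + 5 * 25 ^ k -
            (gEnd * gSum k - 5 * 25 ^ k) from by push_cast; ring]
        obtain ⟨r, hr⟩ := hd
        have h := congrArg Zsqrtd.norm hr
        rw [Zsqrtd.norm_intCast, Zsqrtd.norm_mul,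
          show (gPi ^ 3).norm = 8 from by rw [gPi]; decide] at h
        have ho : Odd ((25 : ℤ) ^ k * 25 ^ (k + 1)) := Odd.mul (Odd.pow (by decide)) (Odd.pow (by decide))
        have : (25 : ℤ) ^ k * 25 ^ (k + 1) = 2 * r.norm := by
          push_cast at h; rw [pow_succ]; linarith
        rw [this] at ho
        simp [Int.odd_iff, Int.mul_emod_right] at ho
      rw [mul_comm] at h
      have := dvd_right_of_pow_not_dvd hB h
      rw [show k - 2 + 1 = k - 1 from by omega] at this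
      simpa [sub_eq_add_neg] using this
    · refine ⟨5 * 25 ^ k, ?_⟩
      have := dvd_right_of_pow_not_dvd hA h
      rw [show k - 2 + 1 = k - 1 from by omega] at this
      simpa using this
  have h2 : ((2 ^ ((k - 1) / 2) : ℤ) : GaussianInt) ∣ gEnd * gSum k + (c : GaussianInt) := by
    refine (dvd_trans ?_ (pow_dvd_pow gPi (show 2 * ((k - 1) / 2) ≤ k - 1 from by omega))).trans hc
    rw [pow_mul, Int.cast_pow]
    exact pow_dvd_pow_of_dvd ⟨⟨0, 1⟩, by rw [gPi]; decide⟩ _
  simpa using ((Zsqrtd.intCast_dvd _ _).1 h2).2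

theorem gW_pow_im_dvd (w : GaussianInt) {c : GaussianInt} (h : c ^ 2 = 2 * w) (k : ℕ) :
    (2 : ℤ) ^ (k / 2) ∣ (gEnd * c ^ k).im := by
  have h2 : (((2 : ℤ) ^ (k / 2) : ℤ) : GaussianInt) ∣ gEnd * c ^ k := by
    refine Dvd.dvd.mul_left ?_ _
    refine dvd_trans ?_ (pow_dvd_pow c (show 2 * (k / 2) ≤ k from by omega))
    rw [pow_mul, h, mul_pow, Int.cast_pow]
    exact ⟨w ^ (k / 2), by norm_num⟩
  exact ((Zsqrtd.intCast_dvd _ _).1 h2).2

theorem gWc_sq_two : gWc ^ 2 = 2 * ⟨24, -7⟩ := by rw [gWc]; decide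

end

end Vale.Agent.P021
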