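import Vale.Agent.P021.Pins
import Mathlib.Analysis.SpecialFunctions.Log.Basic
import Mathlib.NumberTheory.PrimeCounting

/-!
P021: sub-interfaces for the denominator bound DenPin.
For n and a prime p, with S = 1700 and y = S n / p, k = floor y, the two interval families below are
exactly where the absence rule applies (ends in units of n; the left end carries a slack of 3).
B_k (k >= 0) lies in y between k+1/2 and k+1; A_k (k >= 1) in y between k and k+1/2: all disjoint.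
-/

namespace Vale.Agent.P021

open Filter Finset

noncomputable section

/-- Number of periods used. -/
def numK : ℕ := 5200

/-- Wrap count of (3S-1)n/p in period k of the B family. -/
def offB (k : ℕ) : ℕ := (k + 850) / 1700

/-- Wrap count in period k+1 of the A family. -/
def offA (k : ℕ) : ℕ := (k + 1) / 1700

def uB (k : ℕ) : ℚ :=
  max (5099 / ((3 * k + 2 - offB k : ℕ) : ℚ)) (6802 / ((4 * k + 3 + 2 * offB k : ℕ) : ℚ))

def vB (k : ℕ) : ℚ :=
  min (3400 / ((2 * k + 1 : ℕ) : ℚ)) (5099 / ((3 * k + 1 - offB k : ℕ) : ℚ))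

/-- The A family is indexed with k+1. -/
def uA (k : ℕ) : ℚ :=
  max (5099 / ((3 * k + 3 - offA k : ℕ) : ℚ)) (6802 / ((4 * k + 5 + 2 * offA k : ℕ) : ℚ))

def vA (k : ℕ) : ℚ :=
  min (1700 / ((k + 1 : ℕ) : ℚ)) (5099 / ((3 * k + 2 - offA k : ℕ) : ℚ))

/-- Total length of the absent intervals, in units of n. -/
def absentGain : ℚ :=
  ∑ k ∈ range numK, (max 0 (vB k - uB k) + max 0 (vA k - uA k))

/-- p is covered by the absence rule at step n. -/
def IsAbsent (n p : ℕ) : Prop :=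
  30 * S0 * n < p ^ 2 ∧ ∃ k < numK,
    (uB k * n + 3 < (p : ℚ) ∧ (p : ℚ) < vB k * n) ∨ (uA k * n + 3 < (p : ℚ) ∧ (p : ℚ) < vA k * n)

open Classical in
/-- Exponent of a prime p other than 2, 5 in the denominator at step n. -/
def denExp (n p : ℕ) : ℕ := if IsAbsent n p then 0 else Nat.log p (30 * S0 * n)

/-- Primes other than 2 and 5 that can occur. -/
def denPrimes (n : ℕ) : Finset ℕ :=
  (Icc 3 ((4 * S0 + 2) * n + 4)).filter fun p => p.Prime ∧ p ≠ 5

/-- [F] the prime sum (PNT). -/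
def PrimeSumPin : Prop :=
  ∀ ε : ℝ, 0 < ε → ∀ᶠ n : ℕ in atTop,
    ∑ p ∈ denPrimes n, (denExp n p : ℝ) * Real.log p
      ≤ (((4 * S0 + 2 : ℕ) : ℝ) - (absentGain : ℝ) + ε) * n

/-- [F2] the numerical inequality. -/
def DeltaNumPin : Prop :=
  ((4 * S0 + 2 : ℕ) : ℝ) - (absentGain : ℝ) - 5 / 2 * ((S0 : ℝ) + 1) * Real.log 2 ≤ delta0 * S0

/-- [C] the prime 2. -/
def TwoPin : Prop :=
  ∀ ε : ℝ, 0 < ε → ∀ᶠ n : ℕ in atTop, ∃ e : ℤ,
    (e : ℝ) ≤ -(5 / 2 * ((S0 : ℝ) + 1)) * n + ε * n ∧ ∀ i < 3,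
      ¬ 2 ∣ ((2 : ℚ) ^ e * coefA (expP n i) (expN n) (expK n)).den ∧
      ¬ 2 ∣ ((2 : ℚ) ^ e * coefB (expP n i) (expN n) (expK n)).den

/-- [C] the prime 5. -/
def FivePin : Prop :=
  ∀ ε : ℝ, 0 < ε → ∀ᶠ n : ℕ in atTop, ∃ e : ℕ, (e : ℝ) ≤ ε * n ∧ ∀ i < 3,
      ¬ 5 ∣ ((5 : ℚ) ^ e * coefA (expP n i) (expN n) (expK n)).den ∧
      ¬ 5 ∣ ((5 : ℚ) ^ e * coefB (expP n i) (expN n) (expK n)).den

end

end Vale.Agent.P021
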