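import Vale.Agent.P021.AdicGauss
import Vale.Agent.P021.DenPins

/-!
P021: the primes 2 and 5 in the denominators. `VGe p e x` says that the valuation of `x` at `p` is at
least `e`.
-/

namespace Vale.Agent.P021

open Polynomial Finset Filter

noncomputable section

variable {p : ℕ} [hp : Fact p.Prime]

/-- The valuation of x at p is at least e. -/
def VGe (p : ℕ) [Fact p.Prime] (e : ℤ) (x : ℚ) : Prop := (p : ℚ) ^ (-e) * x ∈ pInt p

theorem VGe.mono {e f : ℤ} {x : ℚ} (h : VGe p e x) (hfe : f ≤ e) : VGe p f x := by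
  unfold VGe at h ⊢
  have hp0 : (p : ℚ) ≠ 0 := by exact_mod_cast hp.out.ne_zero
  obtain ⟨d, hd⟩ := Int.le.dest hfe
  rw [show -f = (d : ℤ) + -e from by omega, zpow_add₀ hp0, zpow_natCast, mul_assoc]
  exact mul_mem (pow_mem (natCast_mem _ _) _) h

theorem VGe.mul {e f : ℤ} {x y : ℚ} (hx : VGe p e x) (hy : VGe p f y) :
    VGe p (e + f) (x * y) := by
  unfold VGe at hx hy ⊢
  have hp0 : (p : ℚ) ≠ 0 := by exact_mod_cast hp.out.ne_zero
  rw [show -(e + f) = -e + -f from by ring, zpow_add₀ hp0, mul_mul_mul_comm]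
  exact mul_mem hx hy

theorem vge_zero (e : ℤ) : VGe p e 0 := by unfold VGe; simp

theorem vge_sum {ι : Type*} {s : Finset ι} {f : ι → ℚ} {e : ℤ} (h : ∀ i ∈ s, VGe p e (f i)) :
    VGe p e (∑ i ∈ s, f i) := by
  unfold VGe at *
  rw [mul_sum]
  exact sum_mem h

theorem vge_intCast {z : ℤ} {k : ℕ} (h : (p : ℤ) ^ k ∣ z) : VGe p k (z : ℚ) := by
  obtain ⟨w, rfl⟩ := h
  have hp0 : (p : ℚ) ≠ 0 := by exact_mod_cast hp.out.ne_zero
  unfold VGe
  push_cast
  rw [← mul_assoc, zpow_neg, zpow_natCast, inv_mul_cancel₀ (pow_ne_zero _ hp0), one_mul]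
  exact intCast_mem _ _

theorem vge_natCast {a k : ℕ} (h : p ^ k ∣ a) : VGe p k (a : ℚ) := by
  have := vge_intCast (p := p) (z := (a : ℤ)) (k := k) (by exact_mod_cast h)
  simpa using this

theorem vge_inv {q L : ℕ} (hq : 0 < q) (h : q.factorization p ≤ L) :
    VGe p (-(L : ℤ)) ((q : ℚ))⁻¹ := by
  unfold VGe
  rw [neg_neg, zpow_natCast, ← div_eq_mul_inv]
  exact pow_div_mem hq h

theorem vge_inv_pow {b k j : ℕ} (hb : ¬ p ∣ b) :
    VGe p (-((k * j : ℕ) : ℤ)) (((((p ^ k * b) ^ j : ℕ) : ℚ))⁻¹) := by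
  unfold VGe
  have hp0 : (p : ℚ) ≠ 0 := by exact_mod_cast hp.out.ne_zero
  rw [neg_neg, zpow_natCast, mul_pow, ← pow_mul, Nat.cast_mul, mul_inv, ← mul_assoc]
  rw [show ((p ^ (k * j) : ℕ) : ℚ) = (p : ℚ) ^ (k * j) from Nat.cast_pow p (k * j),
    mul_inv_cancel₀ (pow_ne_zero _ hp0), one_mul]
  exact inv_nat_mem fun h => hb (hp.out.dvd_of_dvd_pow h)

/-- log bound for the index and central binomial denominators. -/
def logLoss (p n : ℕ) : ℕ := Nat.log p (40000 * n + 20)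

theorem fac_le_logLoss {n q : ℕ} (hq : q ≤ 40000 * n + 20) :
    q.factorization p ≤ logLoss p n := by
  rcases Nat.eq_zero_or_pos q with rfl | h0
  · simp
  exact Nat.le_log_of_pow_le hp.out.one_lt
    ((Nat.le_of_dvd h0 (Nat.ordProj_dvd q p)).trans hq)

omit hp in
theorem fac_cb_le {n j : ℕ} (hj : 2 * j ≤ 40000 * n + 20) :
    j.centralBinom.factorization p ≤ logLoss p n :=
  Nat.factorization_choose_le_log.trans (Nat.log_mono_right hj)

theorem fac_mul_cb_le {n a j : ℕ} (ha : 0 < a) (h1 : a ≤ 40000 * n + 20)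
    (hj : 2 * j ≤ 40000 * n + 20) :
    (a * j.centralBinom).factorization p ≤ 2 * logLoss p n := by
  rw [Nat.factorization_mul ha.ne' (Nat.centralBinom_ne_zero j), Finsupp.coe_add, Pi.add_apply]
  have := fac_le_logLoss (p := p) h1
  have := fac_cb_le (p := p) hj
  omega

/-- The total loss. -/
def lossAdic (p n : ℕ) : ℕ := 2 * logLoss p n + 8

/-- The guaranteed power of 2. -/
def gainTwo (n : ℕ) : ℕ := 5 * (S0 + 1) * n / 2

theorem vge_aNeg {u v : ℕ} (k : ℕ) (h20 : (20 : ℕ) = p ^ u * v) (hv : ¬ p ∣ v)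
    {w : ℕ} (h100 : (100 : ℕ) = p ^ 2 * w) (hw : ¬ p ∣ w) :
    VGe p (-((u + 2 * k : ℕ) : ℤ)) (aNeg k) := by
  rw [aNeg_eq]
  have h1 := vge_inv_pow (p := p) (b := v) (k := u) (j := 1) hv
  have h2 := vge_inv_pow (p := p) (b := w) (k := 2) (j := k) hw
  rw [← h20] at h1
  rw [← h100] at h2
  have h3 := ((vge_natCast (p := p) (a := k.centralBinom) (k := 0) (by simp)).mul h1).mul h2
  convert h3.mono ?_ using 1
  · push_cast; field_simp
  · push_cast; omega

theorem bNeg_term (k i : ℕ) :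
    aNeg k / aNeg (i + 1) * (2 * endVal (-((i : ℤ) + 1))) / (50 * ((i : ℚ) + 1))
      = ((gEnd * gWc ^ (i + 1)).im : ℚ) * (k.centralBinom : ℚ) * (((25 : ℕ) : ℚ))⁻¹
        * (((100 ^ k : ℕ) : ℚ))⁻¹ * (((2 ^ (i + 1) : ℕ) : ℚ))⁻¹
        * ((((i + 1) * (i + 1).centralBinom : ℕ) : ℚ))⁻¹ := by
  have h : endVal (-((i : ℤ) + 1)) = eNeg (i + 1) := by
    rw [show -((i : ℤ) + 1) = Int.negSucc i from by simp [Int.negSucc_eq]]; rfl
  have hc : ((i + 1).centralBinom : ℚ) ≠ 0 := by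
    exact_mod_cast Nat.centralBinom_ne_zero (i + 1)
  rw [h, eNeg_eq, aNeg_eq, aNeg_eq]
  push_cast
  rw [show ((200 : ℚ)) ^ (i + 1) = 2 ^ (i + 1) * 100 ^ (i + 1) from by rw [← mul_pow]; norm_num]
  field_simp
  ring

theorem vge_bNeg_two {n k : ℕ} (hk : k ≤ 10000 * n + 2) :
    VGe 2 (-((2 * k + (k + 1) / 2 + 2 * logLoss 2 n : ℕ) : ℤ)) (bNeg k) := by
  rw [bNeg_eq]
  refine vge_sum fun i hi => ?_
  have hi' := mem_range.mp hi
  rw [bNeg_term]
  have h0 := vge_intCast (p := 2) (k := (i + 1) / 2) (z := (gEnd * gWc ^ (i + 1)).im)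
    (by exact_mod_cast gW_pow_im_dvd _ gWc_sq_two (i + 1))
  have h1 := vge_natCast (p := 2) (a := k.centralBinom) (k := 0) (by simp)
  have h2 := vge_inv_pow (p := 2) (b := 25) (k := 0) (j := 1) (by norm_num)
  have h3 := vge_inv_pow (p := 2) (b := 25) (k := 2) (j := k) (by norm_num)
  have h4 := vge_inv_pow (p := 2) (b := 1) (k := 1) (j := i + 1) (by norm_num)
  have h5 := vge_inv (p := 2) (Nat.mul_pos i.succ_pos (Nat.centralBinom_pos (i + 1)))
    (fac_mul_cb_le (n := n) i.succ_pos (show i + 1 ≤ _ from by omega) (show 2 * (i + 1) ≤ _ from by omega))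
  norm_num at h2 h3 h4
  have h := ((((h0.mul h1).mul h2).mul h3).mul h4).mul h5
  convert h.mono (f := -((2 * k + (k + 1) / 2 + 2 * logLoss 2 n : ℕ) : ℤ)) (by push_cast; omega) using 1
  push_cast
  simp [one_div]

theorem vge_bNeg_five [Fact (Nat.Prime 5)] {n k : ℕ} (hk : k ≤ 10000 * n + 2) :
    VGe 5 (-((2 * k + 2 + 2 * logLoss 5 n : ℕ) : ℤ)) (bNeg k) := by
  rw [bNeg_eq]
  refine vge_sum fun i hi => ?_
  have hi' := mem_range.mp hi
  rw [bNeg_term]
  have h0 := vge_intCast (p := 5) (k := 0) (z := (gEnd * gWc ^ (i + 1)).im) (by simp)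
  have h1 := vge_natCast (p := 5) (a := k.centralBinom) (k := 0) (by simp)
  have h2 := vge_inv_pow (p := 5) (b := 1) (k := 2) (j := 1) (by norm_num)
  have h3 := vge_inv_pow (p := 5) (b := 4) (k := 2) (j := k) (by norm_num)
  have h4 := vge_inv_pow (p := 5) (b := 2) (k := 0) (j := i + 1) (by norm_num)
  have h5 := vge_inv (p := 5) (Nat.mul_pos i.succ_pos (Nat.centralBinom_pos (i + 1)))
    (fac_mul_cb_le (n := n) i.succ_pos (show i + 1 ≤ _ from by omega) (show 2 * (i + 1) ≤ _ from by omega))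
  norm_num at h2 h3 h4
  have h := ((((h0.mul h1).mul h2).mul h3).mul h4).mul h5
  convert h.mono (f := -((2 * k + 2 + 2 * logLoss 5 n : ℕ) : ℤ)) (by push_cast; omega) using 1
  push_cast
  simp [one_div]

theorem vge_bPos {n k t : ℕ} (hk : k ≤ 10000 * n + 2)
    (ht : (p : ℤ) ^ t ∣ (2 : ℤ) * 4 ^ k * (gEnd * gSum k).im) :
    VGe p ((t : ℤ) - (2 * logLoss p n : ℕ)) (bPos k) := by
  have h0 := vge_intCast (p := p) ht
  have h1 := vge_inv (p := p) (Nat.mul_pos (2 * k).succ_pos (Nat.centralBinom_pos k))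
    (fac_mul_cb_le (n := n) (2 * k).succ_pos (show 2 * k + 1 ≤ _ from by omega)
      (show 2 * k ≤ _ from by omega))
  rw [bPos_gauss, div_eq_mul_inv]
  have h := h0.mul h1
  rw [sub_eq_add_neg]
  push_cast at h ⊢
  exact h

theorem vge_bPos_two {n k : ℕ} (hk : k ≤ 10000 * n + 2) :
    VGe 2 ((1 + 2 * k + (k - 1) / 2 : ℕ) - ((2 * logLoss 2 n : ℕ) : ℤ)) (bPos k) := by
  refine vge_bPos hk ?_
  rw [pow_add, pow_add, pow_one, pow_mul]
  norm_num
  exact mul_dvd_mul_left _ (gSum_im_dvd k)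

/-- numPoly over the integers. -/
def numInt (P N : ℕ) : ℤ[X] := (C 25 - X) ^ P * (X ^ 2 - C 56 * X + C 800) ^ N

theorem numPoly_coeff (P N m : ℕ) : (numPoly P N).coeff m = ((numInt P N).coeff m : ℚ) := by
  have h : numPoly P N = (numInt P N).map (Int.castRingHom ℚ) := by
    simp [numPoly, numInt, upoly, qpoly, map_ofNat]
  rw [h, coeff_map]; rfl

/-- Coefficient m is divisible by b^(e M m). -/
theorem dvd_mul_coeff {b : ℤ} {e : ℕ → ℕ → ℕ} {M1 M2 : ℕ} {f g : ℤ[X]}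
    (he : ∀ i j, e (M1 + M2) (i + j) ≤ e M1 i + e M2 j)
    (hf : ∀ m, b ^ e M1 m ∣ f.coeff m) (hg : ∀ m, b ^ e M2 m ∣ g.coeff m) (m : ℕ) :
    b ^ e (M1 + M2) m ∣ (f * g).coeff m := by
  rw [coeff_mul]
  refine dvd_sum fun x hx => ?_
  rw [mem_antidiagonal] at hx
  subst hx
  refine dvd_trans (pow_dvd_pow b (he _ _)) ?_
  rw [pow_add]
  exact mul_dvd_mul (hf _) (hg _)

theorem dvd_pow_coeff {b : ℤ} {e : ℕ → ℕ → ℕ} {f : ℤ[X]} (h0 : ∀ m, e 0 m = 0)
    (he : ∀ M1 M2 i j, e (M1 + M2) (i + j) ≤ e M1 i + e M2 j)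
    (hf : ∀ m, b ^ e 1 m ∣ f.coeff m) : ∀ N m, b ^ e N m ∣ (f ^ N).coeff m := by
  intro N
  induction N with
  | zero => intro m; simp [h0]
  | succ N ih =>
    intro m
    rw [pow_succ]
    exact dvd_mul_coeff (he _ _) ih hf m

theorem numInt_two (P N m : ℕ) : (2 : ℤ) ^ ((5 * (2 * N - m) + 1) / 2) ∣ (numInt P N).coeff m := by
  have hq : ∀ m, (2 : ℤ) ^ ((5 * (2 * 1 - m) + 1) / 2) ∣
      (X ^ 2 - C 56 * X + C 800 : ℤ[X]).coeff m := by
    intro m
    rcases m with _ | _ | m <;> norm_num [coeff_X, coeff_C, coeff_X_pow]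
  rw [numInt, show (5 * (2 * N - m) + 1) / 2
    = (fun M m => (5 * (2 * M - m) + 1) / 2) (0 + N) m from by simp]
  exact dvd_mul_coeff (e := fun M m => (5 * (2 * M - m) + 1) / 2) (fun i j => by omega)
    (fun m => by simp)
    (dvd_pow_coeff (e := fun M m => (5 * (2 * M - m) + 1) / 2) (fun m => by simp)
      (fun a b i j => by omega) hq N) m

theorem numInt_five (P N m : ℕ) : (5 : ℤ) ^ (2 * (P + N - m)) ∣ (numInt P N).coeff m := by
  have hu : ∀ m, (5 : ℤ) ^ (2 * (1 - m)) ∣ (C 25 - X : ℤ[X]).coeff m := by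
    intro m
    rcases m with _ | m <;> norm_num [coeff_X, coeff_C]
  have hq : ∀ m, (5 : ℤ) ^ (2 * (1 - m)) ∣ (X ^ 2 - C 56 * X + C 800 : ℤ[X]).coeff m := by
    intro m
    rcases m with _ | m <;> norm_num [coeff_X, coeff_C, coeff_X_pow]
  exact dvd_mul_coeff (e := fun M m => 2 * (M - m)) (fun i j => by omega)
    (dvd_pow_coeff (e := fun M m => 2 * (M - m)) (fun m => by simp) (fun a b i j => by omega) hu P)
    (dvd_pow_coeff (e := fun M m => 2 * (M - m)) (fun m => by simp) (fun a b i j => by omega) hq N) m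

theorem vge_phi {g : ℤ → ℚ} {n i : ℕ} {e : ℤ} (hi : i < 3)
    (hg : ∀ m ≤ 8500 * n + 2,
      VGe p e (g ((m : ℤ) - (5099 * n + 1 : ℕ)) * ((numInt (1700 * n + i) (3400 * n)).coeff m : ℚ))) :
    VGe p e (phi g (expK n) (numPoly (expP n i) (expN n))) := by
  rw [phi_eq_sum g _ _ (Nat.lt_succ_of_le (natDegree_numPoly _ _))]
  refine vge_sum fun m hm => ?_
  rw [numPoly_coeff, show expP n i = 1700 * n + i from rfl, show expN n = 3400 * n from rfl,
    show expK n = 5099 * n + 1 from rfl]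
  refine hg m ?_
  have h := mem_range.mp hm
  simp only [expP, expN, S0] at h
  omega

theorem index_cases (n m : ℕ) : (m < 5099 * n + 1 ∧
    ((m : ℤ) - (5099 * n + 1 : ℕ)) = Int.negSucc (5099 * n - m)) ∨ (5099 * n + 1 ≤ m ∧
    ((m : ℤ) - (5099 * n + 1 : ℕ)) = Int.ofNat (m - (5099 * n + 1))) := by
  rcases Nat.lt_or_ge m (5099 * n + 1) with h | h
  · exact Or.inl ⟨h, by rw [Int.negSucc_eq]; omega⟩
  · exact Or.inr ⟨h, by rw [Int.ofNat_eq_natCast]; omega⟩

theorem coefA_two {n i : ℕ} (hi : i < 3) :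
    VGe 2 ((gainTwo n : ℤ) - lossAdic 2 n) (coefA (expP n i) (expN n) (expK n)) := by
  refine vge_phi hi fun m _ => ?_
  rcases index_cases n m with ⟨h, e⟩ | ⟨h, e⟩ <;> rw [e]
  · have h1 := vge_aNeg (p := 2) (u := 2) (v := 5) (5099 * n - m) (by norm_num) (by norm_num)
      (w := 25) (by norm_num) (by norm_num)
    have h2 := vge_intCast (p := 2) (by exact_mod_cast numInt_two (1700 * n + i) (3400 * n) m)
    refine (h1.mul h2).mono ?_
    simp only [gainTwo, lossAdic, S0]; push_cast; omega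
  · simp only [alpha, zero_mul]; exact vge_zero _

theorem coefA_five [Fact (Nat.Prime 5)] {n i : ℕ} (hn : 1 ≤ n) (hi : i < 3) :
    VGe 5 (-(lossAdic 5 n : ℤ)) (coefA (expP n i) (expN n) (expK n)) := by
  refine vge_phi hi fun m _ => ?_
  rcases index_cases n m with ⟨h, e⟩ | ⟨h, e⟩ <;> rw [e]
  · have h1 := vge_aNeg (p := 5) (u := 1) (v := 4) (5099 * n - m) (by norm_num) (by norm_num)
      (w := 4) (by norm_num) (by norm_num)
    have h2 := vge_intCast (p := 5) (by exact_mod_cast numInt_five (1700 * n + i) (3400 * n) m)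
    refine (h1.mul h2).mono ?_
    simp only [lossAdic]; push_cast; omega
  · simp only [alpha, zero_mul]; exact vge_zero _

theorem coefB_two {n i : ℕ} (hi : i < 3) :
    VGe 2 ((gainTwo n : ℤ) - lossAdic 2 n) (coefB (expP n i) (expN n) (expK n)) := by
  refine vge_phi hi fun m hm => ?_
  have h2 := vge_intCast (p := 2) (by exact_mod_cast numInt_two (1700 * n + i) (3400 * n) m)
  rcases index_cases n m with ⟨h, e⟩ | ⟨h, e⟩ <;> rw [e]
  · refine ((vge_bNeg_two (n := n) (k := 5099 * n - m) (by omega)).mul h2).mono ?_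
    simp only [gainTwo, lossAdic, S0]; push_cast; omega
  · refine ((vge_bPos_two (n := n) (k := m - (5099 * n + 1)) (by omega)).mul h2).mono ?_
    simp only [gainTwo, lossAdic, S0]; push_cast; omega

theorem coefB_five [Fact (Nat.Prime 5)] {n i : ℕ} (hn : 1 ≤ n) (hi : i < 3) :
    VGe 5 (-(lossAdic 5 n : ℤ)) (coefB (expP n i) (expN n) (expK n)) := by
  refine vge_phi hi fun m hm => ?_
  have h2 := vge_intCast (p := 5) (by exact_mod_cast numInt_five (1700 * n + i) (3400 * n) m)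
  rcases index_cases n m with ⟨h, e⟩ | ⟨h, e⟩ <;> rw [e]
  · refine ((vge_bNeg_five (n := n) (k := 5099 * n - m) (by omega)).mul h2).mono ?_
    simp only [lossAdic]; push_cast; omega
  · refine ((vge_bPos (p := 5) (n := n) (k := m - (5099 * n + 1)) (t := 0) (by omega)
      (by simp)).mul h2).mono ?_
    simp only [lossAdic]; push_cast; omega

theorem eventually_lossAdic (p : ℕ) (hp1 : 2 ≤ p) {ε : ℝ} (hε : 0 < ε) :
    ∀ᶠ n : ℕ in atTop, (lossAdic p n : ℝ) + 1 ≤ ε * n := by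
  obtain ⟨c, hc⟩ := exists_nat_gt (9 / (ε / 2) + 4 * 40020 / (ε / 4) ^ 2 + 1)
  refine eventually_atTop.2 ⟨c, fun n hn => ?_⟩
  have hnr : (c : ℝ) ≤ n := by exact_mod_cast hn
  have hA : 0 ≤ 9 / (ε / 2) := by positivity
  have hB : 0 ≤ 4 * 40020 / (ε / 4) ^ 2 := by positivity
  have hn1 : (1 : ℝ) ≤ n := by linarith
  have hnat : 1 ≤ n := by exact_mod_cast hn1
  set L := logLoss p n with hL
  have hpow : 2 ^ L ≤ 40000 * n + 20 :=
    (Nat.pow_le_pow_left hp1 L).trans (Nat.pow_log_le_self p (by omega))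
  have hsq : L ^ 2 ≤ 4 * (40020 * n) := by
    have h1 : L ≤ 2 * 2 ^ (L / 2) := by
      have := @Nat.lt_two_pow_self (L / 2); omega
    calc L ^ 2 ≤ (2 * 2 ^ (L / 2)) ^ 2 := Nat.pow_le_pow_left h1 2
      _ = 4 * 2 ^ (L / 2 * 2) := by rw [mul_pow, ← pow_mul]; norm_num
      _ ≤ 4 * 2 ^ L := Nat.mul_le_mul_left 4 (Nat.pow_le_pow_right (by norm_num) (by omega))
      _ ≤ _ := Nat.mul_le_mul_left 4 (by omega)
  have hsqr : (L : ℝ) ^ 2 ≤ 4 * (40020 * n) := by exact_mod_cast hsq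
  have h9 : 9 ≤ ε / 2 * n := by
    have : 9 / (ε / 2) ≤ n := by linarith
    rw [div_le_iff₀ (by linarith)] at this
    linarith
  have h4 : 4 * 40020 ≤ (ε / 4) ^ 2 * n := by
    have : 4 * 40020 / (ε / 4) ^ 2 ≤ n := by linarith
    rw [div_le_iff₀ (by positivity)] at this
    linarith
  have hLb : (L : ℝ) ≤ ε / 4 * n := by
    refine pow_le_pow_iff_left₀ (by positivity) (by positivity) two_ne_zero |>.1 ?_
    nlinarith
  rw [lossAdic, ← hL]
  push_cast
  linarith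

theorem twoPin : TwoPin := by
  intro ε hε
  filter_upwards [eventually_lossAdic 2 le_rfl hε] with n hn
  refine ⟨(lossAdic 2 n : ℤ) - gainTwo n, ?_, fun i hi => ?_⟩
  · have h : 5 * (S0 + 1) * n ≤ 2 * gainTwo n + 1 := by rw [gainTwo]; omega
    have h' : (5 : ℝ) * ((S0 : ℝ) + 1) * n ≤ 2 * gainTwo n + 1 := by exact_mod_cast h
    push_cast
    linarith
  · have hA := coefA_two (n := n) hi
    have hB := coefB_two (n := n) hi
    rw [VGe, neg_sub] at hA hB
    exact ⟨mem_pInt.1 (by exact_mod_cast hA), mem_pInt.1 (by exact_mod_cast hB)⟩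

theorem fivePin : FivePin := by
  intro ε hε
  have : Fact (Nat.Prime 5) := ⟨by norm_num⟩
  filter_upwards [eventually_lossAdic 5 (by norm_num) hε, eventually_ge_atTop 1] with n hn hn1
  refine ⟨lossAdic 5 n, by linarith, fun i hi => ?_⟩
  have hA := coefA_five hn1 hi
  have hB := coefB_five hn1 hi
  rw [VGe, neg_neg, zpow_natCast] at hA hB
  exact ⟨mem_pInt.1 (by exact_mod_cast hA), mem_pInt.1 (by exact_mod_cast hB)⟩

end

end Vale.Agent.P021
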