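import Vale.Agent.P021.Core
import Mathlib.Data.Nat.Choose.Factorization
import Mathlib.Data.Nat.Choose.Central
import Mathlib.Data.Nat.Choose.Dvd
import Mathlib.Data.Nat.Prime.Factorial

/-!
P021: integrality at primes other than 2 and 5 of the moments.
-/

namespace Vale.Agent.P021

open Polynomial Finset

noncomputable section

variable (p : ℕ) [hp : Fact p.Prime]

/-- Rationals with no p in the denominator. -/
def pInt : Subring ℚ where
  carrier := {x | ¬ p ∣ x.den}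
  mul_mem' := by
    intro a b ha hb h
    rcases hp.out.dvd_mul.mp (h.trans (Rat.mul_den_dvd a b)) with h | h
    exacts [ha h, hb h]
  one_mem' := by simp [hp.out.ne_one]
  add_mem' := by
    intro a b ha hb h
    rcases hp.out.dvd_mul.mp (h.trans (Rat.add_den_dvd a b)) with h | h
    exacts [ha h, hb h]
  zero_mem' := by simp [hp.out.ne_one]
  neg_mem' := by intro a ha; simpa using ha

variable {p}

theorem mem_pInt {x : ℚ} : x ∈ pInt p ↔ ¬ p ∣ x.den := Iff.rfl

theorem inv_nat_mem {q : ℕ} (h : ¬ p ∣ q) : ((q : ℚ))⁻¹ ∈ pInt p := by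
  rcases Nat.eq_zero_or_pos q with rfl | hq
  · simp at h
  · rw [mem_pInt, Rat.inv_natCast_den]
    rwa [if_neg hq.ne']

theorem div_nat_mem {x : ℚ} (hx : x ∈ pInt p) {q : ℕ} (h : ¬ p ∣ q) : x / (q : ℚ) ∈ pInt p := by
  rw [div_eq_mul_inv]; exact mul_mem hx (inv_nat_mem h)

theorem pow_div_mem {q L : ℕ} (hq : 0 < q) (h : q.factorization p ≤ L) :
    ((p : ℚ) ^ L / (q : ℚ)) ∈ pInt p := by
  have e := Nat.ordProj_mul_ordCompl_eq_self q p
  have hnd : ¬ p ∣ q / p ^ q.factorization p := Nat.not_dvd_ordCompl hp.out hq.ne'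
  have hp0 : (p : ℚ) ≠ 0 := by exact_mod_cast hp.out.ne_zero
  have : (p : ℚ) ^ L / (q : ℚ)
      = (p : ℚ) ^ (L - q.factorization p) / ((q / p ^ q.factorization p : ℕ) : ℚ) := by
    conv_lhs => rw [← e, Nat.cast_mul, Nat.cast_pow, ← pow_sub_mul_pow (p : ℚ) h]
    rw [mul_comm ((p : ℚ) ^ (L - _)), mul_div_mul_left _ _ (pow_ne_zero _ hp0)]
  rw [this]
  exact div_nat_mem (pow_mem (natCast_mem _ _) _) hnd

omit hp in
theorem factorization_le_of_lt_pow {q L : ℕ} (hq : 0 < q) (h : q < p ^ (L + 1)) :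
    q.factorization p ≤ L := by
  by_contra hc
  push Not at hc
  have : p ^ (L + 1) ≤ q := Nat.le_of_dvd hq
    ((pow_dvd_pow p hc).trans (Nat.ordProj_dvd q p))
  omega

theorem not_dvd_mul_pow {a b : ℕ} (ha : ¬ p ∣ a) (hb : ¬ p ∣ b) : ¬ p ∣ a * b :=
  fun h => (hp.out.dvd_mul.mp h).elim ha hb

omit hp in
theorem not_dvd_two (h7 : 3 ≤ p ∧ p ≠ 5) : ¬ p ∣ 2 := fun h => by
  have := Nat.le_of_dvd (by norm_num) h; omega

theorem not_dvd_five (h7 : 3 ≤ p ∧ p ≠ 5) : ¬ p ∣ 5 := fun h =>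
  h7.2 ((Nat.prime_dvd_prime_iff_eq hp.out (by norm_num)).mp h)

theorem not_dvd_800 (h7 : 3 ≤ p ∧ p ≠ 5) : ¬ p ∣ 800 := by
  have h2 := not_dvd_two h7
  have h5 := not_dvd_five h7
  exact not_dvd_mul_pow (a := 32) (b := 25)
    (not_dvd_mul_pow (a := 16) (b := 2) (not_dvd_mul_pow (a := 8) (b := 2)
      (not_dvd_mul_pow (a := 4) (b := 2) (not_dvd_mul_pow (a := 2) (b := 2) h2 h2) h2) h2) h2)
    (not_dvd_mul_pow (a := 5) (b := 5) h5 h5)

theorem not_dvd_100_pow (h7 : 3 ≤ p ∧ p ≠ 5) (k : ℕ) : ¬ p ∣ 100 ^ k := fun h =>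
  not_dvd_800 h7 ((hp.out.dvd_of_dvd_pow h).trans ⟨8, rfl⟩)

theorem ePos_mem : ∀ n, ePos n ∈ pInt p
  | 0 => by simp only [ePos]; exact natCast_mem _ 2
  | 1 => by simp only [ePos]; exact natCast_mem _ 52
  | n + 2 => by
    simp only [ePos]
    exact sub_mem (mul_mem (natCast_mem _ 56) (ePos_mem (n + 1)))
      (mul_mem (natCast_mem _ 800) (ePos_mem n))

theorem eNeg_mem (h7 : 3 ≤ p ∧ p ≠ 5) : ∀ n, eNeg n ∈ pInt p
  | 0 => by simp only [eNeg]; exact natCast_mem _ 2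
  | 1 => by
    simp only [eNeg]
    refine div_nat_mem (x := 3) (q := 40) (natCast_mem _ 3) fun h => not_dvd_800 h7 ?_
    exact h.trans ⟨20, rfl⟩
  | n + 2 => by
    simp only [eNeg]
    exact div_nat_mem (q := 800) (sub_mem (mul_mem (natCast_mem _ 56) (eNeg_mem h7 (n + 1)))
      (eNeg_mem h7 n)) (not_dvd_800 h7)

theorem endVal_mem (h7 : 3 ≤ p ∧ p ≠ 5) : ∀ m, endVal m ∈ pInt p
  | Int.ofNat n => ePos_mem n
  | Int.negSucc n => eNeg_mem h7 (n + 1)

theorem aNeg_eq (k : ℕ) : aNeg k = (k.centralBinom : ℚ) / (20 * 100 ^ k) := by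
  induction k with
  | zero => norm_num [aNeg]
  | succ k ih =>
    have h := congrArg (fun x : ℕ => (x : ℚ)) (Nat.succ_mul_centralBinom_succ k)
    push_cast at h
    simp only [aNeg, ih, pow_succ]
    field_simp
    linear_combination (-50 : ℚ) * h

theorem alpha_mem (h7 : 3 ≤ p ∧ p ≠ 5) : ∀ m, alpha m ∈ pInt p
  | Int.ofNat n => zero_mem _
  | Int.negSucc k => by
    show aNeg k ∈ _
    rw [aNeg_eq, show (20 : ℚ) * 100 ^ k = ((20 * 100 ^ k : ℕ) : ℚ) from by push_cast; rfl]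
    refine div_nat_mem (natCast_mem _ _) (not_dvd_mul_pow ?_ (not_dvd_100_pow h7 k))
    exact fun h => not_dvd_800 h7 (h.trans ⟨40, rfl⟩)

theorem bNeg_eq (k : ℕ) : bNeg k = ∑ i ∈ range k,
    aNeg k / aNeg (i + 1) * (2 * endVal (-((i : ℤ) + 1))) / (50 * ((i : ℚ) + 1)) := by
  have hne : ∀ j, aNeg j ≠ 0 := fun j => by
    rw [aNeg_eq]; have := Nat.centralBinom_pos j; positivity
  induction k with
  | zero => simp [bNeg]
  | succ k ih =>
    rw [sum_range_succ, div_self (hne (k + 1)), one_mul, bNeg, ih, add_div, add_comm]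
    congr 1
    rw [mul_sum, sum_div]
    refine sum_congr rfl fun i _ => ?_
    have hi := hne (i + 1)
    have hr : aNeg (k + 1) = (2 * (k : ℚ) + 1) * aNeg k / (50 * ((k : ℚ) + 1)) := rfl
    rw [hr]
    field_simp

theorem beta_exact_upoly (k : ℕ) :
    (2 * (k : ℚ) + 1) * phi beta 0 (upoly ^ k) = 2 * phi endVal 0 (upoly ^ k) := by
  have h := phi_beta_exact 0 (upoly ^ k)
  have e : exactPoly 0 (upoly ^ k) = X * ((2 * (k : ℚ) + 1) • upoly ^ k) := by
    rw [exactPoly, smul_eq_C_mul]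
    rcases k with _ | k
    · simp
    · rw [derivative_pow_succ]
      simp only [upoly, derivative_sub, derivative_C, derivative_X, map_add, map_mul,
        Nat.cast_add, Nat.cast_one, map_natCast, map_one, map_zero, Nat.cast_zero]
      simp only [map_ofNat]
      ring
  rw [e, phi_X_mul, map_smul, smul_eq_mul] at h
  exact h

theorem bPos_eq (m : ℕ) : bPos m = ∑ k ∈ range (m + 1),
    (-1 : ℚ) ^ k * 25 ^ (m - k) * (m.choose k : ℚ) *
      (2 * phi endVal 0 (upoly ^ k) / (2 * (k : ℚ) + 1)) := by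
  have h1 : bPos m = phi beta 0 (monomial m 1) := by
    rw [phi_monomial]; simp [beta]
  have h2 : (monomial m (1 : ℚ)) = ∑ k ∈ range (m + 1),
      ((-1 : ℚ) ^ k * 25 ^ (m - k) * (m.choose k : ℚ)) • upoly ^ k := by
    rw [← C_mul_X_pow_eq_monomial, map_one, one_mul,
      show (X : ℚ[X]) = -upoly + C 25 from by rw [upoly]; ring, add_pow]
    refine sum_congr rfl fun k _ => ?_
    rw [smul_eq_C_mul, neg_pow]
    simp only [map_mul, map_pow, map_neg, map_one, map_natCast]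
    ring
  rw [h1, h2, map_sum]
  refine sum_congr rfl fun k _ => ?_
  rw [map_smul, smul_eq_mul, ← beta_exact_upoly, mul_div_assoc']
  field_simp

variable (p)

/-- Polynomials with p-integral coefficients. -/
def intPoly : Subring ℚ[X] := (Polynomial.mapRingHom (pInt p).subtype).range

variable {p}

theorem mem_intPoly {P : ℚ[X]} : P ∈ intPoly p ↔ ∀ n, P.coeff n ∈ pInt p := by
  rw [intPoly, Polynomial.mem_map_range]
  simp

theorem intPoly_C {c : ℚ} (h : c ∈ pInt p) : C c ∈ intPoly p :=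
  mem_intPoly.mpr fun n => by
    rw [coeff_C]; split_ifs
    exacts [h, zero_mem _]

theorem intPoly_X : (X : ℚ[X]) ∈ intPoly p :=
  mem_intPoly.mpr fun n => by
    rw [coeff_X]; split_ifs
    exacts [one_mem _, zero_mem _]

theorem intPoly_upoly : upoly ∈ intPoly p :=
  sub_mem (intPoly_C (natCast_mem _ 25)) intPoly_X

theorem intPoly_qpoly : qpoly ∈ intPoly p :=
  add_mem (sub_mem (pow_mem intPoly_X 2) (mul_mem (intPoly_C (natCast_mem _ 56)) intPoly_X))
    (intPoly_C (natCast_mem _ 800))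

theorem intPoly_derivative {P : ℚ[X]} (h : P ∈ intPoly p) : derivative P ∈ intPoly p := by
  rw [mem_intPoly] at h ⊢
  intro n
  rw [coeff_derivative]
  exact mul_mem (h _) (add_mem (natCast_mem _ n) (one_mem _))

theorem phi_mem {g : ℤ → ℚ} {c : ℚ} {K D : ℕ} {P : ℚ[X]} (hP : P ∈ intPoly p)
    (hD : P.natDegree ≤ D) (hg : ∀ m ≤ D, c * g ((m : ℤ) - K) ∈ pInt p) :
    c * phi g K P ∈ pInt p := by
  rw [phi_eq_sum g K P (Nat.lt_succ_of_le hD), mul_sum]
  refine sum_mem fun m hm => ?_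
  rw [← mul_assoc]
  exact mul_mem (hg m (Nat.lt_succ_iff.mp (mem_range.mp hm))) (mem_intPoly.mp hP m)

theorem phi_endVal_mem (h7 : 3 ≤ p ∧ p ≠ 5) {K : ℕ} {P : ℚ[X]} (hP : P ∈ intPoly p) :
    phi endVal K P ∈ pInt p := by
  simpa using phi_mem (c := 1) hP le_rfl fun m _ => by simpa using endVal_mem h7 _

theorem bPos_mem (h7 : 3 ≤ p ∧ p ≠ 5) {m L : ℕ} (h : 2 * m + 1 < p ^ (L + 1)) :
    (p : ℚ) ^ L * bPos m ∈ pInt p := by
  rw [bPos_eq, mul_sum]
  refine sum_mem fun k hk => ?_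
  have hk' := mem_range.mp hk
  have hq : (p : ℚ) ^ L / ((2 * k + 1 : ℕ) : ℚ) ∈ pInt p :=
    pow_div_mem (by omega) (factorization_le_of_lt_pow (by omega) (by omega))
  have : (p : ℚ) ^ L * ((-1 : ℚ) ^ k * 25 ^ (m - k) * (m.choose k : ℚ) *
      (2 * phi endVal 0 (upoly ^ k) / (2 * (k : ℚ) + 1)))
      = (p : ℚ) ^ L / ((2 * k + 1 : ℕ) : ℚ) *
        ((-1 : ℚ) ^ k * 25 ^ (m - k) * (m.choose k : ℚ) * (2 * phi endVal 0 (upoly ^ k))) := by
    push_cast; field_simp
  rw [this]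
  exact mul_mem hq (mul_mem (mul_mem (mul_mem (pow_mem (neg_mem (one_mem _)) _)
    (pow_mem (natCast_mem _ 25) _)) (natCast_mem _ _))
    (mul_mem (natCast_mem _ 2) (phi_endVal_mem h7 (pow_mem intPoly_upoly _))))

/-- v_p(j * binom(2j,j)) <= L as soon as 2j < p^(L+1). -/
theorem factorization_mul_centralBinom {j L : ℕ} (hj : 0 < j) (h : 2 * j < p ^ (L + 1)) :
    (j * j.centralBinom).factorization p ≤ L := by
  have hlog : Nat.log p (2 * j) < L + 1 := Nat.log_lt_of_lt_pow (by omega) h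
  have hv : j.factorization p ≤ L := factorization_le_of_lt_pow hj (by omega)
  rw [Nat.factorization_mul hj.ne' (Nat.centralBinom_ne_zero j), Finsupp.coe_add, Pi.add_apply,
    Nat.centralBinom, Nat.factorization_choose hp.out (by omega) hlog,
    show 2 * j - j = j from by omega]
  have hsub : {i ∈ Ico 1 (L + 1) | p ^ i ≤ j % p ^ i + j % p ^ i}
      ⊆ Ico (j.factorization p + 1) (L + 1) := by
    intro i hi
    simp only [mem_filter, mem_Ico] at hi ⊢
    refine ⟨?_, hi.1.2⟩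
    by_contra hc
    have : j % p ^ i = 0 :=
      Nat.mod_eq_zero_of_dvd ((pow_dvd_pow p (by omega)).trans (Nat.ordProj_dvd j p))
    rw [this] at hi
    have := hi.2
    have := pow_pos hp.out.pos i
    omega
  have := card_le_card hsub
  rw [Nat.card_Ico] at this
  omega

theorem bNeg_mem_of (h7 : 3 ≤ p ∧ p ≠ 5) {k L : ℕ}
    (h : ∀ j, 0 < j → j ≤ k → (p : ℚ) ^ L * (k.centralBinom : ℚ) / ((j * j.centralBinom : ℕ) : ℚ)
      ∈ pInt p) :
    (p : ℚ) ^ L * bNeg k ∈ pInt p := by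
  rw [bNeg_eq, mul_sum]
  refine sum_mem fun i hi => ?_
  have hi' := mem_range.mp hi
  have hc := Nat.centralBinom_pos (i + 1)
  have : (p : ℚ) ^ L * (aNeg k / aNeg (i + 1) * (2 * endVal (-((i : ℤ) + 1))) / (50 * ((i : ℚ) + 1)))
      = (p : ℚ) ^ L * (k.centralBinom : ℚ) / (((i + 1) * (i + 1).centralBinom : ℕ) : ℚ) *
        ((100 : ℚ) ^ (i + 1) * (2 * endVal (-((i : ℤ) + 1))) / ((50 * 100 ^ k : ℕ) : ℚ)) := by
    rw [aNeg_eq, aNeg_eq]
    have : ((i + 1).centralBinom : ℚ) ≠ 0 := by exact_mod_cast hc.ne'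
    push_cast
    field_simp
  rw [this]
  refine mul_mem (h (i + 1) (by omega) (by omega)) (div_nat_mem (mul_mem
    (pow_mem (natCast_mem _ 100) _) (mul_mem (natCast_mem _ 2) (endVal_mem h7 _)))
    (not_dvd_mul_pow ?_ (not_dvd_100_pow h7 k)))
  exact fun h => not_dvd_800 h7 (h.trans ⟨16, rfl⟩)

theorem bNeg_mem (h7 : 3 ≤ p ∧ p ≠ 5) {k L : ℕ} (h : 2 * k < p ^ (L + 1)) :
    (p : ℚ) ^ L * bNeg k ∈ pInt p := by
  refine bNeg_mem_of h7 fun j hj hjk => ?_
  rw [mul_div_right_comm]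
  exact mul_mem (pow_div_mem (Nat.mul_pos hj (Nat.centralBinom_pos j))
    (factorization_mul_centralBinom hj (by omega))) (natCast_mem _ _)

theorem bNeg_mem_large (h7 : 3 ≤ p ∧ p ≠ 5) {k : ℕ} (h : k < p) : bNeg k ∈ pInt p := by
  have := bNeg_mem_of h7 (k := k) (L := 0) fun j hj hjk => by
    rw [pow_zero, one_mul]
    have hnj : ¬ p ∣ j := fun hd => by have := Nat.le_of_dvd hj hd; omega
    by_cases h2 : 2 * j < p
    · exact div_nat_mem (natCast_mem _ _) (not_dvd_mul_pow hnj fun hd => by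
        have h1 : Nat.centralBinom j ∣ (2 * j).factorial := by
          rw [Nat.centralBinom, ← Nat.choose_mul_factorial_mul_factorial (by omega : j ≤ 2 * j)]
          exact (dvd_mul_right _ _).mul_right _
        have := (Nat.Prime.dvd_factorial hp.out).mp (hd.trans h1)
        omega)
    · have hk : p ∣ k.centralBinom := by
        rw [Nat.centralBinom, two_mul]
        exact Nat.Prime.dvd_choose_add hp.out h h (by omega)
      have hsq : 2 * j < p ^ (1 + 1) := by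
        have : 2 * p ≤ p * p := Nat.mul_le_mul_right p hp.out.two_le
        rw [pow_two]; omega
      obtain ⟨t, ht⟩ := hk
      rw [ht, Nat.cast_mul, ← pow_one ((p : ℚ)), mul_div_right_comm]
      exact mul_mem (pow_div_mem (Nat.mul_pos hj (Nat.centralBinom_pos j))
        (factorization_mul_centralBinom hj hsq)) (natCast_mem _ _)
  simpa using this

theorem beta_mem (h7 : 3 ≤ p ∧ p ≠ 5) {L : ℕ} {m : ℤ} (h1 : 2 * m + 1 < (p : ℤ) ^ (L + 1))
    (h2 : -2 * m < (p : ℤ) ^ (L + 1)) : (p : ℚ) ^ L * beta m ∈ pInt p := by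
  rcases m with n | k
  · refine bPos_mem h7 ?_
    have : ((2 * n + 1 : ℕ) : ℤ) < ((p ^ (L + 1) : ℕ) : ℤ) := by push_cast; simpa using h1
    exact_mod_cast this
  · refine bNeg_mem h7 ?_
    have : ((2 * k : ℕ) : ℤ) < ((p ^ (L + 1) : ℕ) : ℤ) := by
      push_cast; rw [Int.negSucc_eq] at h2; linarith
    exact_mod_cast this

theorem beta_mem_large (h7 : 3 ≤ p ∧ p ≠ 5) {m : ℤ} (h1 : 2 * m + 1 < (p : ℤ))
    (h2 : -m ≤ (p : ℤ)) : beta m ∈ pInt p := by
  rcases m with n | k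
  · have := bPos_mem h7 (m := n) (L := 0) (by simp at h1 ⊢; omega)
    rw [pow_zero, one_mul] at this
    exact this
  · refine bNeg_mem_large h7 ?_
    rw [Int.negSucc_eq] at h2; omega

end

end Vale.Agent.P021
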