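import Vale.Agent.P021.ArithBase

/-!
P021: the three denominator rules at primes other than 2 and 5: crude, top range, absent primes.
-/

namespace Vale.Agent.P021

open Polynomial Finset

noncomputable section

variable {p : ℕ} [hp : Fact p.Prime]

theorem natDegree_upoly : upoly.natDegree ≤ 1 := by
  rw [upoly]; compute_degree

theorem natDegree_qpoly : qpoly.natDegree ≤ 2 := by
  rw [qpoly]; compute_degree

theorem natDegree_numPoly (P N : ℕ) : (numPoly P N).natDegree ≤ P + 2 * N := by
  refine natDegree_mul_le.trans (add_le_add ?_ ?_)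
  · exact natDegree_pow_le.trans (by have := natDegree_upoly; nlinarith)
  · exact natDegree_pow_le.trans (by have := natDegree_qpoly; nlinarith)

theorem intPoly_numPoly (P N : ℕ) : numPoly P N ∈ intPoly p :=
  mul_mem (pow_mem intPoly_upoly _) (pow_mem intPoly_qpoly _)

theorem coefA_mem (h7 : 3 ≤ p ∧ p ≠ 5) (P N K : ℕ) : coefA P N K ∈ pInt p := by
  have := phi_mem (c := 1) (g := alpha) (K := K) (intPoly_numPoly (p := p) P N) le_rfl
    fun m _ => by simpa using alpha_mem h7 _
  simpa [coefA] using this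

/-- Crude rule: exponent at most L once all indices are below p^(L+1). -/
theorem coefB_mem (h7 : 3 ≤ p ∧ p ≠ 5) {P N K L : ℕ} (h1 : 2 * (P + 2 * N) + 1 < p ^ (L + 1) + 2 * K)
    (h2 : 2 * K < p ^ (L + 1)) : (p : ℚ) ^ L * coefB P N K ∈ pInt p := by
  refine phi_mem (intPoly_numPoly P N) (natDegree_numPoly P N) fun m hm => beta_mem h7 ?_ ?_
  · have h1' : ((2 * (P + 2 * N) + 1 : ℕ) : ℤ) < ((p ^ (L + 1) + 2 * K : ℕ) : ℤ) := by
      exact_mod_cast h1
    push_cast at h1'
    have : (m : ℤ) ≤ (P : ℤ) + 2 * N := by exact_mod_cast hm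
    linarith
  · have h2' : ((2 * K : ℕ) : ℤ) < ((p ^ (L + 1) : ℕ) : ℤ) := by exact_mod_cast h2
    push_cast at h2'
    have : (0 : ℤ) ≤ m := by positivity
    linarith

/-- Primes above the top range do not occur. -/
theorem coefB_mem_large (h7 : 3 ≤ p ∧ p ≠ 5) {P N K : ℕ} (h1 : 2 * (P + 2 * N) + 1 < p + 2 * K)
    (h2 : K ≤ p) : coefB P N K ∈ pInt p := by
  have := phi_mem (c := 1) (g := beta) (K := K) (intPoly_numPoly (p := p) P N)
    (natDegree_numPoly P N) fun m hm => by
      rw [one_mul]
      exact beta_mem_large h7 (by omega) (by omega)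
  simpa [coefB] using this

/-- u-antiderivative: exact preimage of c*u^j. -/
def antiU (Nf : ℚ[X]) (fa D : ℕ) : ℚ[X] :=
  ∑ j ∈ Icc fa D, ((Nf.comp upoly).coeff j / (2 * (j : ℚ) + 1)) • upoly ^ j

theorem antiU_eq {fa fb s : ℕ} :
    let Nf := upoly ^ fa * qpoly ^ fb * X ^ s
    let W := antiU Nf fa (fa + 2 * fb + s)
    W - C 2 * upoly * derivative W = Nf := by
  intro Nf W
  have huu : upoly.comp upoly = X := by simp [upoly]
  have hcomp : Nf.comp upoly = X ^ fa * (qpoly.comp upoly) ^ fb * upoly ^ s := by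
    simp only [Nf, mul_comp, pow_comp, huu, X_comp]
  have hdeg : (Nf.comp upoly).natDegree ≤ fa + 2 * fb + s := by
    rw [hcomp]
    refine natDegree_mul_le.trans (add_le_add (natDegree_mul_le.trans (add_le_add ?_ ?_)) ?_)
    · exact natDegree_X_pow_le fa
    · refine natDegree_pow_le.trans ?_
      have : (qpoly.comp upoly).natDegree ≤ 2 := natDegree_comp_le.trans
        ((Nat.mul_le_mul natDegree_qpoly natDegree_upoly).trans (by norm_num))
      nlinarith
    · exact natDegree_pow_le.trans (by have := natDegree_upoly; nlinarith)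
  have hlow : ∀ j < fa, (Nf.comp upoly).coeff j = 0 := by
    intro j hj
    rw [hcomp, mul_assoc, coeff_X_pow_mul']
    rw [if_neg (by omega)]
  have hrec : Nf = ∑ j ∈ Icc fa (fa + 2 * fb + s), (Nf.comp upoly).coeff j • upoly ^ j := by
    have e : (Nf.comp upoly).comp upoly = Nf := by rw [comp_assoc, huu, comp_X]
    conv_lhs => rw [← e, (Nf.comp upoly).as_sum_range' (fa + 2 * fb + s + 1) (by omega)]
    rw [Polynomial.sum_comp]
    have : ∀ j, (monomial j ((Nf.comp upoly).coeff j)).comp upoly
        = (Nf.comp upoly).coeff j • upoly ^ j := fun j => by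
      rw [monomial_comp, smul_eq_C_mul]
    simp only [this]
    symm
    refine sum_subset (fun j hj => mem_range.mpr (by simp at hj; omega)) fun j hj hj' => ?_
    simp only [mem_range, mem_Icc, not_and] at hj hj'
    rw [hlow j (by omega), zero_smul]
  conv_rhs => rw [hrec]
  simp only [W, antiU, derivative_sum, mul_sum, ← sum_sub_distrib]
  refine sum_congr rfl fun j _ => ?_
  set c := (Nf.comp upoly).coeff j
  have hjd : derivative (upoly ^ j) * upoly = -(C (j : ℚ)) * upoly ^ j := by
    rcases j with _ | i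
    · simp
    · rw [derivative_pow_succ]
      have : derivative upoly = -1 := by simp [upoly]
      rw [this, pow_succ]; simp; ring
  rw [derivative_smul, smul_eq_C_mul, smul_eq_C_mul, smul_eq_C_mul,
    show C 2 * upoly * (C (c / (2 * (j : ℚ) + 1)) * derivative (upoly ^ j))
      = C 2 * C (c / (2 * (j : ℚ) + 1)) * (derivative (upoly ^ j) * upoly) from by ring, hjd]
  have : C (c / (2 * (j : ℚ) + 1)) * C (2 * (j : ℚ) + 1) = C c := by
    rw [← map_mul, div_mul_cancel₀]; positivity
  rw [← this]; simp only [map_add, map_mul, map_one]; ring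

/-- Absent primes. -/
theorem coefB_mem_absent (h7 : 3 ≤ p ∧ p ≠ 5) {P N K qa qb qc fa fb s : ℕ}
    (hP : P = p * qa + fa) (hN : N = p * qb + fb) (hK : K + s = p * qc) (hs : s ≤ p)
    (hgap : ∀ j, fa ≤ j → j ≤ fa + 2 * fb + s → ¬ p ∣ 2 * j + 1)
    (hsz : 2 * (P + 2 * N + p + 2) + 1 < p ^ 2) (hszK : 2 * (K + p + 1) < p ^ 2) :
    coefB P N K ∈ pInt p := by
  set T : ℚ[X] := upoly ^ qa * qpoly ^ qb with hT
  set Nf : ℚ[X] := upoly ^ fa * qpoly ^ fb * X ^ s with hNf
  set W : ℚ[X] := antiU Nf fa (fa + 2 * fb + s) with hW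
  have hWeq : W - C 2 * upoly * derivative W = Nf := antiU_eq
  set E : ℚ[X] := upoly * W * (X * T ^ (p - 1) * derivative T - C (qc : ℚ) * T ^ p) with hE
  have hTp : derivative (T ^ p) = C (p : ℚ) * T ^ (p - 1) * derivative T := derivative_pow T p
  have hex : exactPoly (p * qc) (T ^ p * W)
      = X * (T ^ p * Nf) - C (2 * (p : ℚ)) * E := by
    rw [← hWeq, exactPoly, derivative_mul, hTp, hE]
    simp only [Nat.cast_mul, map_mul]
    ring
  have hmain : coefB P N K = 2 * phi endVal (p * qc) (T ^ p * W)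
      + 2 * ((p : ℚ) * phi beta (p * qc + 1) E) := by
    have h := phi_beta_exact (p * qc) (T ^ p * W)
    rw [hex, map_sub, phi_X_mul] at h
    have e2 : T ^ p * Nf = X ^ s * numPoly P N := by
      rw [hT, hNf, numPoly, hP, hN, pow_add, pow_add, mul_pow, ← pow_mul, ← pow_mul,
        mul_comm qa p, mul_comm qb p]
      ring
    rw [e2, ← smul_eq_C_mul, map_smul, smul_eq_mul, ← hK, phi_X_pow_mul, hK] at h
    rw [coefB]
    linarith
  have hNfint : Nf ∈ intPoly p :=
    mul_mem (mul_mem (pow_mem intPoly_upoly _) (pow_mem intPoly_qpoly _)) (pow_mem intPoly_X _)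
  have hcompint : Nf.comp upoly ∈ intPoly p := by
    rw [comp_eq_sum_left, Polynomial.sum_def]
    exact sum_mem fun n _ => mul_mem (intPoly_C (mem_intPoly.mp hNfint n))
      (pow_mem intPoly_upoly _)
  have hWint : W ∈ intPoly p := by
    refine sum_mem fun j hj => ?_
    obtain ⟨h1, h2⟩ := mem_Icc.mp hj
    rw [smul_eq_C_mul]
    refine mul_mem (intPoly_C ?_) (pow_mem intPoly_upoly _)
    have := div_nat_mem (mem_intPoly.mp hcompint j) (hgap j h1 h2)
    push_cast at this
    exact this
  have hTint : T ∈ intPoly p := mul_mem (pow_mem intPoly_upoly _) (pow_mem intPoly_qpoly _)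
  have hEint : E ∈ intPoly p :=
    mul_mem (mul_mem intPoly_upoly hWint)
      (sub_mem (mul_mem (mul_mem intPoly_X (pow_mem hTint _)) (intPoly_derivative hTint))
        (mul_mem (intPoly_C (natCast_mem _ qc)) (pow_mem hTint _)))
  have hTd : T.natDegree ≤ qa + 2 * qb := natDegree_numPoly qa qb
  have hWd : W.natDegree ≤ fa + 2 * fb + s := natDegree_sum_le_of_forall_le _ _ fun j hj => by
    refine (natDegree_smul_le _ _).trans (natDegree_pow_le.trans ?_)
    have := natDegree_upoly
    have := (mem_Icc.mp hj).2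
    nlinarith
  have hp1 : p - 1 + 1 = p := Nat.sub_add_cancel hp.out.one_le
  have hEd : E.natDegree ≤ P + 2 * N + p + 2 := by
    have hb : (X * T ^ (p - 1) * derivative T - C (qc : ℚ) * T ^ p).natDegree
        ≤ p * (qa + 2 * qb) + 1 := by
      refine (natDegree_sub_le _ _).trans (max_le ?_ ?_)
      · refine natDegree_mul_le.trans ?_
        have e1 : (X * T ^ (p - 1)).natDegree ≤ 1 + (p - 1) * (qa + 2 * qb) :=
          natDegree_mul_le.trans (add_le_add natDegree_X_le
            (natDegree_pow_le.trans (Nat.mul_le_mul_left _ hTd)))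
        have e2 : (derivative T).natDegree ≤ qa + 2 * qb :=
          (natDegree_derivative_le T).trans ((Nat.sub_le _ _).trans hTd)
        have : (p - 1) * (qa + 2 * qb) + (qa + 2 * qb) = p * (qa + 2 * qb) := by
          conv_rhs => rw [← hp1]
          ring
        omega
      · refine (natDegree_C_mul_le _ _).trans (natDegree_pow_le.trans ?_)
        have := Nat.mul_le_mul_left p hTd
        omega
    refine natDegree_mul_le.trans ?_
    have e3 : (upoly * W).natDegree ≤ 1 + (fa + 2 * fb + s) :=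
      natDegree_mul_le.trans (add_le_add natDegree_upoly hWd)
    have : p * (qa + 2 * qb) + fa + 2 * fb = P + 2 * N := by rw [hP, hN]; ring
    omega
  have hB : (p : ℚ) * phi beta (p * qc + 1) E ∈ pInt p := by
    have := phi_mem (c := (p : ℚ) ^ 1) (g := beta) (K := p * qc + 1) hEint hEd fun m hm => by
      refine beta_mem h7 ?_ ?_
      · have a1 : ((2 * (P + 2 * N + p + 2) + 1 : ℕ) : ℤ) < ((p ^ 2 : ℕ) : ℤ) := by
          exact_mod_cast hsz
        push_cast at a1
        have a2 : (m : ℤ) ≤ (P : ℤ) + 2 * N + p + 2 := by exact_mod_cast hm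
        have a3 : (0 : ℤ) ≤ ((p * qc + 1 : ℕ) : ℤ) := by positivity
        rw [show (1 : ℕ) + 1 = 2 from rfl]
        linarith
      · have a1 : ((2 * (K + p + 1) : ℕ) : ℤ) < ((p ^ 2 : ℕ) : ℤ) := by exact_mod_cast hszK
        push_cast at a1
        have a2 : ((p * qc + 1 : ℕ) : ℤ) ≤ ((K + p + 1 : ℕ) : ℤ) := by
          have : p * qc + 1 ≤ K + p + 1 := by omega
          exact_mod_cast this
        push_cast at a2
        have a3 : (0 : ℤ) ≤ (m : ℤ) := by positivity
        rw [show (1 : ℕ) + 1 = 2 from rfl]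
        push_cast
        linarith
    simpa using this
  rw [hmain]
  exact add_mem (mul_mem (natCast_mem _ 2) (phi_endVal_mem h7 (mul_mem (pow_mem hTint _) hWint)))
    (mul_mem (natCast_mem _ 2) hB)

end

end Vale.Agent.P021
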