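import Vale.Agent.P021.Pins
import Mathlib.Analysis.SpecialFunctions.Pow.Real
import Mathlib.Analysis.Real.Pi.Irrational
import Mathlib.Analysis.Real.Pi.Bounds
import Mathlib.NumberTheory.DiophantineApproximation.Basic

/-!
P021 [G]: the bound on the irrationality exponent of `π` from the interfaces in `Pins`.
-/

namespace Vale.Agent.P021.Assembly

open Filter Real

/-- Exponents above `71020/10000` have only finitely many approximations. -/
theorem finite_of_pins (hcrit : CriterionPin) (hcoef : CoefPin) (hform : FormPin) (hden : DenPin)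
    (hindep : IndepPin) :
    ∀ ν : ℝ, 71020 / 10000 < ν → {r : ℤ × ℕ | 2 ≤ r.2 ∧ Nat.Coprime r.1.natAbs r.2 ∧
      0 < |π - r.1 / r.2| ∧ |π - r.1 / r.2| < (r.2 : ℝ) ^ (-ν)}.Finite := by
  intro ν hν
  have hS : (0 : ℝ) < (S0 : ℝ) := by simp [S0]
  refine hcrit π ((tau0 + delta0) * S0) ((sigma0 - delta0) * S0)
    (mul_pos (by norm_num [tau0, delta0]) hS) (mul_pos (by norm_num [sigma0, delta0]) hS) ?_ ν ?_
  · intro ε hε
    set η := ε / (2 * S0) with hη_def
    have hη : 0 < η := by positivity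
    have hηeq : 2 * η * S0 = ε := by rw [hη_def]; field_simp
    filter_upwards [hcoef η hη, hform η hη, hden η hη, eventually_ge_atTop 1]
      with n hc hf ⟨d, hd, hdle, hints⟩ hn p q hq
    have hpq : ¬((p : ℚ) = 0 ∧ (q : ℚ) = 0) := fun h => by
      have := h.2
      norm_cast at this
      omega
    obtain ⟨i, hi, hne⟩ := hindep n hn (p : ℚ) (q : ℚ) hpq
    obtain ⟨A, B, hA, hB⟩ := hints i hi
    refine ⟨A, B, ?_, ?_, ?_⟩
    · have e : (A : ℝ) = (d : ℝ) * (coefA (expP n i) (expN n) (expK n) : ℝ) := by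
        exact_mod_cast hA.symm
      rw [e, abs_mul, abs_of_pos (show (0 : ℝ) < (d : ℝ) by exact_mod_cast hd)]
      refine (mul_le_mul hdle (hc i hi) (abs_nonneg _) (exp_pos _).le).trans (le_of_eq ?_)
      rw [← exp_add, ← hηeq]
      congr 1
      ring
    · have e : (A : ℝ) * π + B = (d : ℝ) * linForm (expP n i) (expN n) (expK n) := by
        have eA : (A : ℝ) = (d : ℝ) * (coefA (expP n i) (expN n) (expK n) : ℝ) := by
          exact_mod_cast hA.symm
        have eB : (B : ℝ) = (d : ℝ) * (coefB (expP n i) (expN n) (expK n) : ℝ) := by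
          exact_mod_cast hB.symm
        rw [eA, eB, linForm]
        ring
      rw [e, abs_mul, abs_of_pos (show (0 : ℝ) < (d : ℝ) by exact_mod_cast hd)]
      refine (mul_le_mul hdle (hf i hi) (abs_nonneg _) (exp_pos _).le).trans (le_of_eq ?_)
      rw [← exp_add, ← hηeq]
      congr 1
      ring
    · intro h
      have h' : (A : ℚ) * p + (B : ℚ) * q = 0 := by exact_mod_cast h
      rw [← hA, ← hB] at h'
      apply hne
      refine (mul_eq_zero.1 (?_ : d * _ = 0)).resolve_left hd.ne'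
      linear_combination h'
  · rw [mul_div_mul_right _ _ hS.ne']
    have : 1 + (tau0 + delta0) / (sigma0 - delta0) ≤ 71020 / 10000 := by
      norm_num [tau0, sigma0, delta0]
    linarith

/-- The approximations of exponent `ν ≤ 2` are infinitely many. -/
theorem infinite_of_le_two {ν : ℝ} (hν : ν ≤ 2) :
    {r : ℤ × ℕ | 2 ≤ r.2 ∧ Nat.Coprime r.1.natAbs r.2 ∧
      0 < |π - r.1 / r.2| ∧ |π - r.1 / r.2| < (r.2 : ℝ) ^ (-ν)}.Infinite := by
  set T : Set ℚ := {r : ℚ | |π - r| < 1 / (r.den : ℝ) ^ 2} with hT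
  have hinf : T.Infinite :=
    Real.infinite_rat_abs_sub_lt_one_div_den_sq_of_irrational irrational_pi
  set T' : Set ℚ := {r ∈ T | 2 ≤ r.den}
  have hinf' : T'.Infinite := by
    refine Set.Infinite.mono ?_ (hinf.sdiff (Set.Finite.image (fun z : ℤ => (z : ℚ))
      (Set.finite_Icc (-5 : ℤ) 5)))
    rintro r ⟨hr, hr'⟩
    refine ⟨hr, ?_⟩
    by_contra hlt
    have hden : r.den = 1 := by
      have := r.den_pos
      omega
    apply hr'
    refine ⟨r.num, ?_, Rat.coe_int_num_of_den_eq_one hden⟩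
    have hr1 : |π - r| < 1 := by
      have := hr
      simp only [hT, Set.mem_ofPred_eq, hden, Nat.cast_one, one_pow, div_one] at this
      exact this
    have e : (r : ℝ) = (r.num : ℝ) := by
      rw [Rat.cast_def, hden, Nat.cast_one, div_one]
    rw [e, abs_lt] at hr1
    have h3 := pi_gt_three
    have h4 := pi_lt_four
    have ha : (-5 : ℝ) ≤ (r.num : ℝ) := by linarith [hr1.1, hr1.2]
    have hb : (r.num : ℝ) ≤ 5 := by linarith [hr1.1, hr1.2]
    exact Set.mem_Icc.2 ⟨by exact_mod_cast ha, by exact_mod_cast hb⟩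
  refine Set.infinite_of_injOn_mapsTo (f := fun r : ℚ => (r.num, r.den)) ?_ ?_ hinf'
  · intro a _ b _ h
    exact Rat.ext (congrArg Prod.fst h) (congrArg Prod.snd h)
  · rintro r ⟨hr, hden⟩
    have e : (r : ℝ) = (r.num : ℝ) / (r.den : ℝ) := Rat.cast_def r
    refine ⟨hden, r.reduced, ?_, ?_⟩
    · show 0 < |π - (r.num : ℝ) / (r.den : ℝ)|
      rw [← e]
      exact abs_pos.2 (sub_ne_zero.2 (irrational_pi.ne_rat r))
    · show |π - (r.num : ℝ) / (r.den : ℝ)| < (r.den : ℝ) ^ (-ν)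
      rw [← e]
      refine lt_of_lt_of_le hr ?_
      have h1 : (1 : ℝ) ≤ (r.den : ℝ) := by exact_mod_cast r.den_pos
      rw [one_div, ← rpow_natCast, ← rpow_neg (by positivity)]
      exact rpow_le_rpow_of_exponent_le h1 (by push_cast; linarith)

/-- The bound on the irrationality exponent of `π`. -/
theorem assembly (hcrit : CriterionPin) (hcoef : CoefPin) (hform : FormPin) (hden : DenPin)
    (hindep : IndepPin) :
    (∀ ν : ℝ, 71020 / 10000 < ν → {r : ℤ × ℕ | 2 ≤ r.2 ∧ Nat.Coprime r.1.natAbs r.2 ∧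
        0 < |π - r.1 / r.2| ∧ |π - r.1 / r.2| < (r.2 : ℝ) ^ (-ν)}.Finite) ∧
      BddAbove {ν : ℝ | 0 < ν ∧ {r : ℤ × ℕ | 2 ≤ r.2 ∧ Nat.Coprime r.1.natAbs r.2 ∧
        0 < |π - r.1 / r.2| ∧ |π - r.1 / r.2| < (r.2 : ℝ) ^ (-ν)}.Infinite} ∧
      2 ≤ sSup {ν : ℝ | 0 < ν ∧ {r : ℤ × ℕ | 2 ≤ r.2 ∧ Nat.Coprime r.1.natAbs r.2 ∧
        0 < |π - r.1 / r.2| ∧ |π - r.1 / r.2| < (r.2 : ℝ) ^ (-ν)}.Infinite} ∧
      sSup {ν : ℝ | 0 < ν ∧ {r : ℤ × ℕ | 2 ≤ r.2 ∧ Nat.Coprime r.1.natAbs r.2 ∧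
        0 < |π - r.1 / r.2| ∧ |π - r.1 / r.2| < (r.2 : ℝ) ^ (-ν)}.Infinite} ≤ 71020 / 10000 ∧
      (71020 / 10000 : ℝ) < 7103205334137 / 1000000000000 := by
  have hfin := finite_of_pins hcrit hcoef hform hden hindep
  have hub : ∀ ν ∈ {ν : ℝ | 0 < ν ∧ {r : ℤ × ℕ | 2 ≤ r.2 ∧ Nat.Coprime r.1.natAbs r.2 ∧
      0 < |π - r.1 / r.2| ∧ |π - r.1 / r.2| < (r.2 : ℝ) ^ (-ν)}.Infinite},
      ν ≤ 71020 / 10000 := fun ν hν => not_lt.1 fun h => hν.2 (hfin ν h)
  refine ⟨hfin, ⟨_, hub⟩, le_csSup ⟨_, hub⟩ ⟨two_pos, infinite_of_le_two le_rfl⟩,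
    csSup_le ⟨2, two_pos, infinite_of_le_two le_rfl⟩ hub, by norm_num⟩

end Vale.Agent.P021.Assembly
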