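import Vale.Agent.P021.Pins
import Mathlib

/-!
P021: upper bound on the coefficient of π.

Substituting v = 100 z / (1 + z)^2 turns `coefA P N (L+1)` into the L-th coefficient of a power
series with explicit factors; its absolute value is bounded by the coefficientwise triangle
inequality at the radius r = 299 / 1250.  No analysis is needed.
-/

namespace Vale.Agent.P021.Coef

open Finset

noncomputable section


/-- `C` bounds every partial sum of `|f_k| r^k`. -/
def Bd (r : ℝ) (f : PowerSeries ℝ) (C : ℝ) : Prop :=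
  ∀ N : ℕ, ∑ k ∈ range N, |PowerSeries.coeff k f| * r ^ k ≤ C

variable {r : ℝ}

theorem Bd.nonneg {f : (PowerSeries ℝ)} {C : ℝ} (h : Bd r f C) : 0 ≤ C := by simpa using h 0

theorem Bd.le {f : (PowerSeries ℝ)} {C : ℝ} (hr : 0 ≤ r) (h : Bd r f C) (k : ℕ) :
    |PowerSeries.coeff k f| * r ^ k ≤ C :=
  le_trans (Finset.single_le_sum (f := fun j => |PowerSeries.coeff j f| * r ^ j)
    (fun _ _ => by positivity) (Finset.self_mem_range_succ k)) (h (k + 1))

theorem Bd.mul {f g : (PowerSeries ℝ)} {C D : ℝ} (hr : 0 ≤ r) (hf : Bd r f C) (hg : Bd r g D) :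
    Bd r (f * g) (C * D) := by
  intro N
  have step : ∀ k, |PowerSeries.coeff k (f * g)| * r ^ k ≤
      ∑ a ∈ range (k + 1),
        |PowerSeries.coeff a f| * r ^ a * (|PowerSeries.coeff (k - a) g| * r ^ (k - a)) := by
    intro k
    rw [PowerSeries.coeff_mul, Finset.Nat.sum_antidiagonal_eq_sum_range_succ
      (fun a b => PowerSeries.coeff a f * PowerSeries.coeff b g)]
    refine le_trans (mul_le_mul_of_nonneg_right (Finset.abs_sum_le_sum_abs _ _) (by positivity)) ?_
    rw [Finset.sum_mul]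
    refine le_of_eq (Finset.sum_congr rfl fun a ha => ?_)
    have hk : a + (k - a) = k := Nat.add_sub_cancel' (Nat.lt_succ_iff.1 (mem_range.1 ha))
    rw [abs_mul]
    conv_lhs => rw [← hk, pow_add, hk]
    ring
  refine le_trans (Finset.sum_le_sum fun k _ => step k) ?_
  rw [Finset.sum_range_diag_flip (n := N)
    (f := fun a b => |PowerSeries.coeff a f| * r ^ a * (|PowerSeries.coeff b g| * r ^ b))]
  refine le_trans (Finset.sum_le_sum fun a _ => ?_)
    (show ∑ a ∈ range N, |PowerSeries.coeff a f| * r ^ a * D ≤ C * D from by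
      rw [← Finset.sum_mul]; exact mul_le_mul_of_nonneg_right (hf N) hg.nonneg)
  rw [← Finset.mul_sum]
  exact mul_le_mul_of_nonneg_left (hg _) (by positivity)

theorem Bd.const (_hr : 0 ≤ r) (a : ℝ) : Bd r (PowerSeries.C a) |a| := by
  intro N
  rcases N with _ | N
  · simp
  · rw [Finset.sum_range_succ']
    simp [PowerSeries.coeff_C]

theorem Bd.ofNat (hr : 0 ≤ r) (n : ℕ) [n.AtLeastTwo] :
    Bd r (OfNat.ofNat n : PowerSeries ℝ) (OfNat.ofNat n : ℝ) := by
  have h := Bd.const hr (OfNat.ofNat n : ℝ)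
  rwa [map_ofNat, abs_of_nonneg (Nat.ofNat_nonneg n)] at h

theorem Bd.one (hr : 0 ≤ r) : Bd r (1 : PowerSeries ℝ) 1 := by simpa using Bd.const hr 1

theorem Bd.pow {f : (PowerSeries ℝ)} {C : ℝ} (hr : 0 ≤ r) (h : Bd r f C) (n : ℕ) : Bd r (f ^ n) (C ^ n) := by
  induction n with
  | zero => simpa using Bd.one hr
  | succ n ih => rw [pow_succ, pow_succ]; exact ih.mul hr h

theorem Bd.add {f g : (PowerSeries ℝ)} {C D : ℝ} (hr : 0 ≤ r) (hf : Bd r f C) (hg : Bd r g D) :
    Bd r (f + g) (C + D) := by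
  intro N
  refine le_trans ?_ (add_le_add (hf N) (hg N))
  rw [← Finset.sum_add_distrib]
  refine Finset.sum_le_sum fun k _ => ?_
  rw [map_add, ← add_mul]
  exact mul_le_mul_of_nonneg_right (abs_add_le _ _) (by positivity)

theorem Bd.sub {f g : (PowerSeries ℝ)} {C D : ℝ} (hr : 0 ≤ r) (hf : Bd r f C) (hg : Bd r g D) :
    Bd r (f - g) (C + D) := by
  intro N
  refine le_trans ?_ (add_le_add (hf N) (hg N))
  rw [← Finset.sum_add_distrib]
  refine Finset.sum_le_sum fun k _ => ?_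
  rw [map_sub, ← add_mul]
  exact mul_le_mul_of_nonneg_right (abs_sub _ _) (by positivity)

theorem Bd.X (hr : 0 ≤ r) : Bd r (PowerSeries.X : PowerSeries ℝ) r := by
  intro N
  rcases N with _ | _ | N
  · simpa
  · simpa [PowerSeries.coeff_X] using hr
  · rw [Finset.sum_range_succ', Finset.sum_range_succ']
    simp [PowerSeries.coeff_X]

/-- The inverse of `1 + X`. -/
def W : (PowerSeries ℝ) := PowerSeries.mk fun k => (-1) ^ k

theorem one_add_X_mul_W : (1 + PowerSeries.X) * W = 1 := by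
  ext k
  rcases k with _ | k
  · simp [W, PowerSeries.coeff_mul]
  · rw [add_mul, one_mul, map_add, PowerSeries.coeff_succ_X_mul, PowerSeries.coeff_one]
    simp [W, pow_succ]

theorem Bd.W (h0 : 0 ≤ r) (h1 : r < 1) : Bd r Coef.W (1 / (1 - r)) := by
  intro N
  have e : ∀ k, |PowerSeries.coeff k Coef.W| * r ^ k = r ^ k := fun k => by simp [Coef.W]
  simp only [e]
  have h : 0 < 1 - r := by linarith
  rw [le_div_iff₀ h, geom_sum_mul_neg]
  have : 0 ≤ r ^ N := by positivity
  linarith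

/-- `25 z^2 - 14 z (1+z)^2 + 2 (1+z)^4`. -/
def q4 : (PowerSeries ℝ) :=
  2 - 6 * PowerSeries.X + 9 * PowerSeries.X ^ 2 - 6 * PowerSeries.X ^ 3 + 2 * PowerSeries.X ^ 4

/-- The value of v. -/
def vz : (PowerSeries ℝ) := 100 * PowerSeries.X * W ^ 2

theorem u_fac : (25 : PowerSeries ℝ) - vz = 25 * (1 - PowerSeries.X) ^ 2 * W ^ 2 := by
  have h := one_add_X_mul_W
  have h2 : ((1 + PowerSeries.X) * W) ^ 2 = (1 : PowerSeries ℝ) := by rw [h, one_pow]
  simp only [vz]
  linear_combination (-25 : PowerSeries ℝ) * h2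

theorem q_fac : vz ^ 2 - 56 * vz + (800 : PowerSeries ℝ) = 400 * q4 * W ^ 4 := by
  have h := one_add_X_mul_W
  have h2 : ((1 + PowerSeries.X) * W) ^ 2 = (1 : PowerSeries ℝ) := by rw [h, one_pow]
  have h4 : ((1 + PowerSeries.X) * W) ^ 4 = (1 : PowerSeries ℝ) := by rw [h, one_pow]
  simp only [vz, q4]
  linear_combination (5600 : PowerSeries ℝ) * PowerSeries.X * W ^ 2 * h2 + (-800 : PowerSeries ℝ) * h4

theorem aNeg_eq (j : ℕ) : (aNeg j : ℝ) = (j.centralBinom : ℝ) / (20 * 100 ^ j) := by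
  induction j with
  | zero => simp [aNeg]
  | succ j ih =>
    have h : ((j : ℝ) + 1) * ((j + 1).centralBinom : ℝ) = 2 * (2 * (j : ℝ) + 1) * j.centralBinom := by
      exact_mod_cast Nat.succ_mul_centralBinom_succ j
    simp only [aNeg]
    push_cast
    rw [ih]
    field_simp
    linear_combination (-50 * (100 : ℝ) ^ j) * h

/-- coefficients to power series. -/
def castHom : ℚ →+* (PowerSeries ℝ) := PowerSeries.C.comp (Rat.castHom ℝ)

theorem eval_numPoly (P N : ℕ) :
    Polynomial.eval₂ castHom vz (numPoly P N) =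
      (25 - vz) ^ P * (vz ^ 2 - 56 * vz + 800) ^ N := by
  simp [numPoly, upoly, qpoly, Polynomial.eval₂_mul, Polynomial.eval₂_pow, castHom, map_ofNat]

theorem coeff_one_add_X_pow (n k : ℕ) :
    PowerSeries.coeff k ((1 + PowerSeries.X : PowerSeries ℝ) ^ n) = (n.choose k : ℝ) := by
  have : ((((1 + Polynomial.X) ^ n : Polynomial ℝ)) : PowerSeries ℝ) = (1 + PowerSeries.X) ^ n := by
    simp
  rw [← this, Polynomial.coeff_coe, Polynomial.coeff_one_add_X_pow]

theorem vz_pow_mul (L m : ℕ) :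
    PowerSeries.coeff L (vz ^ m * (1 + PowerSeries.X) ^ (2 * L)) =
      if m ≤ L then 100 ^ m * ((L - m).centralBinom : ℝ) else 0 := by
  have h100 : (100 : PowerSeries ℝ) ^ m = PowerSeries.C ((100 : ℝ) ^ m) := by rw [map_pow, map_ofNat]
  rw [vz, mul_pow, mul_pow, h100,
    show PowerSeries.C ((100 : ℝ) ^ m) * PowerSeries.X ^ m * (W ^ 2) ^ m *
        (1 + PowerSeries.X) ^ (2 * L) = PowerSeries.C ((100 : ℝ) ^ m) *
        (PowerSeries.X ^ m * ((W ^ 2) ^ m * (1 + PowerSeries.X) ^ (2 * L))) from by ring,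
    PowerSeries.coeff_C_mul, PowerSeries.coeff_X_pow_mul']
  split_ifs with hm
  · have : (W ^ 2) ^ m * (1 + PowerSeries.X) ^ (2 * L) =
        (1 + PowerSeries.X : PowerSeries ℝ) ^ (2 * (L - m)) := by
      rw [← pow_mul, show 2 * L = 2 * m + 2 * (L - m) by omega, pow_add, ← mul_assoc,
        ← mul_pow, mul_comm W, one_add_X_mul_W, one_pow, one_mul]
    rw [this, coeff_one_add_X_pow, Nat.centralBinom]
  · simp

/-- The coefficient of π as a coefficient of a power series. -/
theorem coefA_eq (P N L : ℕ) (hL : L ≤ P + 2 * N) :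
    20 * 100 ^ L * (coefA P N (L + 1) : ℝ) = PowerSeries.coeff L
      (25 ^ P * 400 ^ N * (1 - PowerSeries.X) ^ (2 * P) * q4 ^ N *
        W ^ (2 * (P + 2 * N - L)) : PowerSeries ℝ) := by
  set T := numPoly P N
  set D := T.natDegree + 1
  have e1 : (25 ^ P * 400 ^ N * (1 - PowerSeries.X) ^ (2 * P) * q4 ^ N *
      W ^ (2 * (P + 2 * N - L)) : PowerSeries ℝ) =
      Polynomial.eval₂ castHom vz T * (1 + PowerSeries.X) ^ (2 * L) := by
    rw [eval_numPoly, u_fac, q_fac]
    have : W ^ (2 * P) * W ^ (4 * N) * (1 + PowerSeries.X : PowerSeries ℝ) ^ (2 * L) =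
        W ^ (2 * (P + 2 * N - L)) := by
      rw [← pow_add,
        show 2 * P + 4 * N = 2 * (P + 2 * N - L) + 2 * L by omega, pow_add, mul_assoc, ← mul_pow,
        mul_comm W, one_add_X_mul_W, one_pow, mul_one]
    simp only [mul_pow, ← pow_mul, ← this]
    ring
  rw [e1, Polynomial.eval₂_eq_sum_range' castHom (n := D) (Nat.lt_succ_self _), Finset.sum_mul,
    map_sum]
  unfold coefA
  rw [phi_eq_sum _ _ _ (N := D) (Nat.lt_succ_self _), Rat.cast_sum, Finset.mul_sum]
  refine Finset.sum_congr rfl fun m _ => ?_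
  rw [mul_assoc (castHom _)]
  simp only [castHom, RingHom.comp_apply]
  rw [PowerSeries.coeff_C_mul, vz_pow_mul]
  split_ifs with hm
  · have : ((m : ℤ) - ((L + 1 : ℕ) : ℤ)) = Int.negSucc (L - m) := by
      rw [Int.negSucc_eq]; omega
    rw [this]
    simp only [alpha, Rat.cast_mul, aNeg_eq, eq_ratCast]
    have h100 : (100 : ℝ) ^ L = 100 ^ m * 100 ^ (L - m) := by
      rw [← pow_add]; congr 1; omega
    rw [h100]
    field_simp
  · have : ((m : ℤ) - ((L + 1 : ℕ) : ℤ)) = Int.ofNat (m - (L + 1)) := by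
      simp only [Int.ofNat_eq_natCast]; omega
    rw [this]
    simp [alpha]

/-- The radius. -/
def r0 : ℝ := 299 / 1250

theorem coefA_bound (P N L : ℕ) (hL : L ≤ P + 2 * N) :
    |(coefA P N (L + 1) : ℝ)| * (20 * (100 * r0) ^ L) ≤
      25 ^ P * 400 ^ N * (1 + r0) ^ (2 * P) *
        (2 + 6 * r0 + 9 * r0 ^ 2 + 6 * r0 ^ 3 + 2 * r0 ^ 4) ^ N *
          (1 / (1 - r0)) ^ (2 * (P + 2 * N - L)) := by
  have h0 : (0 : ℝ) ≤ r0 := by norm_num [r0]
  have h1 : r0 < 1 := by norm_num [r0]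
  have hX := Bd.X h0
  have hu : Bd r0 (1 - PowerSeries.X : PowerSeries ℝ) (1 + r0) := (Bd.one h0).sub h0 hX
  have hq : Bd r0 q4 (2 + 6 * r0 + 9 * r0 ^ 2 + 6 * r0 ^ 3 + 2 * r0 ^ 4) :=
    ((((Bd.ofNat h0 2).sub h0 ((Bd.ofNat h0 6).mul h0 hX)).add h0
      ((Bd.ofNat h0 9).mul h0 (hX.pow h0 2))).sub h0
      ((Bd.ofNat h0 6).mul h0 (hX.pow h0 3))).add h0 ((Bd.ofNat h0 2).mul h0 (hX.pow h0 4))
  have hb := ((((((Bd.ofNat h0 25).pow h0 P).mul h0 ((Bd.ofNat h0 400).pow h0 N)).mul h0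
    (hu.pow h0 (2 * P))).mul h0 (hq.pow h0 N)).mul h0
      ((Bd.W h0 h1).pow h0 (2 * (P + 2 * N - L)))).le h0 L
  rw [← coefA_eq P N L hL, abs_mul,
    abs_of_nonneg (by positivity : (0 : ℝ) ≤ 20 * 100 ^ L)] at hb
  rw [mul_pow]
  refine le_trans (le_of_eq ?_) hb
  ring

/-- The growth per step, divided into a 1700th power and a rest. -/
theorem base_bound :
    25 * 400 ^ 2 * (1 + r0) ^ 2 * (2 + 6 * r0 + 9 * r0 ^ 2 + 6 * r0 ^ 3 + 2 * r0 ^ 4) ^ 2 /
      ((1 - r0) ^ 4 * (100 * r0) ^ 3) ≤ Real.exp (9992035 / 1000000) := by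
  have h1 : Real.exp (9992035 / 1000000 : ℝ) =
      Real.exp 1 ^ 9 * Real.exp (992035 / 1000000) := by
    rw [← Real.exp_nat_mul, ← Real.exp_add]; norm_num
  rw [h1]
  refine le_trans ?_ (mul_le_mul
    (pow_le_pow_left₀ (by norm_num) Real.exp_one_gt_d9.le 9)
    (Real.sum_le_exp_of_nonneg (by norm_num) 14)
    (Finset.sum_nonneg fun i _ => by positivity) (by positivity))
  norm_num [r0, Finset.sum_range_succ, Nat.factorial]

theorem extra_bound : 100 * r0 / (1 - r0) ^ 2 ≤ Real.exp (37215 / 10000) := by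
  have h1 : Real.exp (37215 / 10000 : ℝ) = Real.exp 1 ^ 3 * Real.exp (7215 / 10000) := by
    rw [← Real.exp_nat_mul, ← Real.exp_add]; norm_num
  rw [h1]
  refine le_trans ?_ (mul_le_mul
    (pow_le_pow_left₀ (by norm_num) Real.exp_one_gt_d9.le 3)
    (Real.sum_le_exp_of_nonneg (by norm_num) 14)
    (Finset.sum_nonneg fun i _ => by positivity) (by positivity))
  norm_num [r0, Finset.sum_range_succ, Nat.factorial]

theorem coefPin : CoefPin := by
  intro ε hε
  set c : ℝ := 25 * (1 + r0) ^ 2 / (1 - r0) ^ 2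
  have hev : ∀ᶠ n : ℕ in Filter.atTop, c ^ 2 + 1 ≤ Real.exp (ε * (S0 * n)) := by
    have : Filter.Tendsto (fun n : ℕ => Real.exp (ε * (S0 * n))) Filter.atTop Filter.atTop := by
      refine Real.tendsto_exp_atTop.comp ?_
      refine Filter.Tendsto.const_mul_atTop hε ?_
      exact Filter.Tendsto.const_mul_atTop (by norm_num [S0]) tendsto_natCast_atTop_atTop
    exact this.eventually_ge_atTop _
  filter_upwards [hev] with n hn i hi
  have hb := coefA_bound (1700 * n + i) (3400 * n) (5099 * n) (by omega)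
  have hP : expP n i = 1700 * n + i := rfl
  have hN : expN n = 3400 * n := by simp [expN, S0]
  have hK : expK n = 5099 * n + 1 := by simp [expK, S0]
  rw [hP, hN, hK]
  set A := |(coefA (1700 * n + i) (3400 * n) (5099 * n + 1) : ℝ)|
  set q := 2 + 6 * r0 + 9 * r0 ^ 2 + 6 * r0 ^ 3 + 2 * r0 ^ 4
  set base := 25 * 400 ^ 2 * (1 + r0) ^ 2 * q ^ 2 / ((1 - r0) ^ 4 * (100 * r0) ^ 3) with hbase
  set ex := 100 * r0 / (1 - r0) ^ 2 with hex
  have r0pos : (0 : ℝ) < r0 := by norm_num [r0]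
  have r1 : (0 : ℝ) < 1 - r0 := by norm_num [r0]
  have qpos : 0 < q := by positivity
  have key : A * 20 ≤ (base ^ 1700 * ex) ^ n * c ^ i := by
    have hM : 2 * (1700 * n + i + 2 * (3400 * n) - 5099 * n) = 6802 * n + 2 * i := by omega
    rw [hM] at hb
    have : A * 20 * (100 * r0) ^ (5099 * n) ≤ (base ^ 1700 * ex) ^ n * c ^ i *
        (100 * r0) ^ (5099 * n) := by
      refine le_trans (le_of_eq (by ring)) (le_trans hb (le_of_eq ?_))
      rw [hbase, hex]
      simp only [c, div_pow, mul_pow, ← pow_mul, pow_add, one_pow]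
      field_simp
      ring_nf
    exact le_of_mul_le_mul_right this (by positivity)
  have hexp : (base ^ 1700 * ex) ^ n ≤ Real.exp (tau0 * (S0 * n)) := by
    have hb0 : 0 ≤ base := by positivity
    have he0 : 0 ≤ ex := by positivity
    calc (base ^ 1700 * ex) ^ n
        ≤ (Real.exp (9992035 / 1000000) ^ 1700 * Real.exp (37215 / 10000)) ^ n :=
          pow_le_pow_left₀ (by positivity)
            (mul_le_mul (pow_le_pow_left₀ hb0 base_bound 1700) extra_bound he0 (by positivity)) n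
      _ ≤ _ := by
          rw [← Real.exp_nat_mul, ← Real.exp_add, ← Real.exp_nat_mul]
          refine Real.exp_le_exp.2 ?_
          have hn0 : (0 : ℝ) ≤ n := by positivity
          simp only [tau0, S0]
          push_cast
          nlinarith
  have hc : c ^ i ≤ c ^ 2 + 1 := by
    have h0 : 1 ≤ c := by norm_num [c, r0]
    have := pow_le_pow_right₀ h0 (show i ≤ 2 by omega)
    linarith
  have hA : A ≤ A * 20 := by have := abs_nonneg (coefA (1700 * n + i) (3400 * n) (5099 * n + 1) : ℝ); linarith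
  calc A ≤ (base ^ 1700 * ex) ^ n * c ^ i := hA.trans key
    _ ≤ Real.exp (tau0 * (S0 * n)) * Real.exp (ε * (S0 * n)) :=
        mul_le_mul hexp (hc.trans hn) (by positivity) (by positivity)
    _ = _ := by rw [← Real.exp_add]; congr 1; ring

end

end Vale.Agent.P021.Coef
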