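import Mathlib.Algebra.Polynomial.Derivative
import Mathlib.Algebra.Polynomial.Eval.Degree
import Mathlib.Tactic
import Mathlib.Analysis.SpecialFunctions.Trigonometric.Basic

/-!
P021: the linear forms coefA * π + coefB of the Zeilberger-Zudilin family, described algebraically.
A number moment m stands for the integral of v^m dy, v = 25 - y^2, and phi moment K P for the
integral of P(v)/v^K dy. Both moment sequences satisfy
(2m+1) g m - 50 m g (m-1) = h m.
-/

namespace Vale.Agent.P021

open Polynomial

noncomputable section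

/-- Im(y v^m), y = -1+2i, v = 28+4i, m natural. -/
def ePos : ℕ → ℚ
  | 0 => 2
  | 1 => 52
  | n + 2 => 56 * ePos (n + 1) - 800 * ePos n

/-- Im(y v^(-m)). -/
def eNeg : ℕ → ℚ
  | 0 => 2
  | 1 => 3 / 40
  | n + 2 => (56 * eNeg (n + 1) - eNeg n) / 800

/-- Im(y v^m) at the upper endpoint, for integer m. -/
def endVal : ℤ → ℚ
  | Int.ofNat n => ePos n
  | Int.negSucc n => eNeg (n + 1)

def aNeg : ℕ → ℚ
  | 0 => 1 / 20
  | k + 1 => (2 * (k : ℚ) + 1) * aNeg k / (50 * ((k : ℚ) + 1))

def bPos : ℕ → ℚ
  | 0 => 4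
  | k + 1 => (50 * ((k : ℚ) + 1) * bPos k + 2 * endVal ((k : ℤ) + 1)) / (2 * (k : ℚ) + 3)

def bNeg : ℕ → ℚ
  | 0 => 0
  | k + 1 => (2 * endVal (-((k : ℤ) + 1)) + (2 * (k : ℚ) + 1) * bNeg k) / (50 * ((k : ℚ) + 1))

/-- coefficient of π in the integral of v^m dy, divided by i. -/
def alpha : ℤ → ℚ
  | Int.ofNat _ => 0
  | Int.negSucc k => aNeg k

/-- rational component of the integral of v^m dy, divided by i. -/
def beta : ℤ → ℚ
  | Int.ofNat k => bPos k
  | Int.negSucc k => bNeg k

def Rec (g h : ℤ → ℚ) : Prop := ∀ m : ℤ, (2 * (m : ℚ) + 1) * g m - 50 * (m : ℚ) * g (m - 1) = h m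

theorem rec_alpha : Rec alpha (fun _ => 0) := by
  intro m
  rcases m with n | k
  · rcases n with _ | n
    · simp [alpha]
    · have : (Int.ofNat (n + 1)) - 1 = Int.ofNat n := by simp
      rw [this]; simp [alpha]
  · have : Int.negSucc k - 1 = Int.negSucc (k + 1) := by simp [Int.negSucc_eq]; ring
    rw [this]
    simp only [alpha, aNeg, Int.cast_negSucc]
    push_cast
    field_simp
    ring

theorem rec_beta : Rec beta (fun m => 2 * endVal m) := by
  intro m
  rcases m with n | k
  · rcases n with _ | n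
    · simp only [beta, endVal, bPos, ePos, Int.ofNat_eq_natCast, Nat.cast_zero, Int.cast_zero]
      norm_num
    · have : (Int.ofNat (n + 1)) - 1 = Int.ofNat n := by simp
      rw [this]
      have h1 : ((n : ℤ) + 1) = Int.ofNat (n + 1) := by simp
      simp only [beta, bPos, h1]
      simp only [Int.ofNat_eq_natCast, Int.cast_natCast]
      push_cast
      field_simp
      ring
  · have : Int.negSucc k - 1 = Int.negSucc (k + 1) := by simp [Int.negSucc_eq]; ring
    rw [this]
    have h1 : -((k : ℤ) + 1) = Int.negSucc k := by simp [Int.negSucc_eq]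
    simp only [beta, bNeg, h1, Int.cast_negSucc]
    push_cast
    field_simp
    ring

theorem endVal_rec (m : ℤ) : endVal (m + 2) - 56 * endVal (m + 1) + 800 * endVal m = 0 := by
  rcases m with n | k
  · have h1 : Int.ofNat n + 1 = Int.ofNat (n + 1) := by simp
    have h2 : Int.ofNat n + 2 = Int.ofNat (n + 2) := by simp
    rw [h1, h2]; simp only [endVal, ePos]; ring
  · rcases k with _ | k
    · show endVal (Int.ofNat 1) - 56 * endVal (Int.ofNat 0) + 800 * endVal (Int.negSucc 0) = 0
      norm_num [endVal, ePos, eNeg]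
    · rcases k with _ | k
      · show endVal (Int.ofNat 0) - 56 * endVal (Int.negSucc 0) + 800 * endVal (Int.negSucc 1) = 0
        norm_num [endVal, ePos, eNeg]
      · have h1 : Int.negSucc (k + 2) + 1 = Int.negSucc (k + 1) := by simp [Int.negSucc_eq]; ring
        have h2 : Int.negSucc (k + 2) + 2 = Int.negSucc k := by simp [Int.negSucc_eq]; ring
        show endVal (Int.negSucc (k + 2) + 2) - _ + _ = _
        rw [h1, h2]; simp only [endVal, eNeg]; ring

/-- phi g K P stands for the functional applied to P(v)/v^K. -/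
def phi (g : ℤ → ℚ) (K : ℕ) : ℚ[X] →ₗ[ℚ] ℚ :=
  Polynomial.lsum fun m => g ((m : ℤ) - K) • LinearMap.id

theorem phi_apply (g : ℤ → ℚ) (K : ℕ) (P : ℚ[X]) :
    phi g K P = P.sum fun m c => g ((m : ℤ) - K) * c := by
  simp [phi, Polynomial.lsum]

theorem phi_monomial (g : ℤ → ℚ) (K m : ℕ) (c : ℚ) :
    phi g K (monomial m c) = g ((m : ℤ) - K) * c := by
  rw [phi_apply, Polynomial.sum_monomial_index]
  simp

theorem phi_eq_sum (g : ℤ → ℚ) (K : ℕ) (P : ℚ[X]) {N : ℕ} (h : P.natDegree < N) :
    phi g K P = ∑ m ∈ Finset.range N, g ((m : ℤ) - K) * P.coeff m := by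
  rw [phi_apply, Polynomial.sum_over_range' _ (fun n => by simp) N h]

theorem phi_X_mul (g : ℤ → ℚ) (K : ℕ) (P : ℚ[X]) : phi g (K + 1) (X * P) = phi g K P := by
  induction P using Polynomial.induction_on' with
  | add p q hp hq => rw [mul_add, map_add, map_add, hp, hq]
  | monomial m c =>
    rw [X_mul_monomial, phi_monomial, phi_monomial]
    congr 2
    push_cast; ring

theorem phi_X_pow_mul (g : ℤ → ℚ) (K s : ℕ) (P : ℚ[X]) :
    phi g (K + s) (X ^ s * P) = phi g K P := by
  induction s with
  | zero => simp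
  | succ s ih => rw [pow_succ', mul_assoc, ← add_assoc, phi_X_mul, ih]

/-- u = 25 - v. -/
def upoly : ℚ[X] := C 25 - X

/-- y^4+6y^2+25 written in v. -/
def qpoly : ℚ[X] := X ^ 2 - C 56 * X + C 800

/-- (d/dy)(y P(v)/v^K) = exactPoly K P / v^(K+1). -/
def exactPoly (K : ℕ) (P : ℚ[X]) : ℚ[X] :=
  X * P - C 2 * upoly * (X * derivative P - C (K : ℚ) * P)

theorem phi_exact {g h : ℤ → ℚ} (hr : Rec g h) (K : ℕ) (P : ℚ[X]) :
    phi g (K + 1) (exactPoly K P) = phi h K P := by
  induction P using Polynomial.induction_on' with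
  | add p q hp hq =>
    have : exactPoly K (p + q) = exactPoly K p + exactPoly K q := by
      simp only [exactPoly, derivative_add]; ring
    rw [this, map_add, map_add, hp, hq]
  | monomial m c =>
    have hd : X * derivative (monomial m c) = monomial m (c * (m : ℚ)) := by
      rcases m with _ | m
      · simp
      · rw [derivative_monomial, X_mul_monomial]; simp
    have : exactPoly K (monomial m c) =
        monomial (m + 1) (c * (2 * ((m : ℚ) - K) + 1)) - monomial m (50 * c * ((m : ℚ) - K)) := by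
      rw [exactPoly, hd, upoly, C_mul_monomial, ← map_sub, X_mul_monomial]
      rw [show C (2 : ℚ) * (C 25 - X) = C 50 - C 2 * X from by rw [mul_sub, ← map_mul]; norm_num]
      rw [sub_mul, mul_assoc, X_mul_monomial, C_mul_monomial, C_mul_monomial]
      rw [show c * (2 * ((m : ℚ) - K) + 1) = c + 2 * (c * m - K * c) from by ring, map_add,
        show 50 * c * ((m : ℚ) - K) = 50 * (c * m - K * c) from by ring]
      abel
    rw [this, map_sub, phi_monomial, phi_monomial, phi_monomial]
    have e := hr ((m : ℤ) - K)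
    have i1 : (((m + 1 : ℕ) : ℤ) - ((K + 1 : ℕ) : ℤ)) = (m : ℤ) - K := by push_cast; ring
    have i2 : ((m : ℤ) - ((K + 1 : ℕ) : ℤ)) = (m : ℤ) - K - 1 := by push_cast; ring
    rw [i1, i2]
    push_cast at e
    linear_combination c * e

theorem phi_zero_fun (K : ℕ) (P : ℚ[X]) : phi (fun _ => 0) K P = 0 := by
  simp [phi_apply, Polynomial.sum_def]

theorem phi_alpha_exact (K : ℕ) (P : ℚ[X]) : phi alpha (K + 1) (exactPoly K P) = 0 := by
  rw [phi_exact rec_alpha, phi_zero_fun]

theorem phi_beta_exact (K : ℕ) (P : ℚ[X]) :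
    phi beta (K + 1) (exactPoly K P) = 2 * phi endVal K P := by
  rw [phi_exact rec_beta, phi_apply, phi_apply, Polynomial.sum_def, Polynomial.sum_def,
    Finset.mul_sum]
  simp [mul_assoc]

/-- Boundary terms vanish on multiples of Q. -/
theorem phi_endVal_qpoly (K : ℕ) (P : ℚ[X]) : phi endVal K (qpoly * P) = 0 := by
  induction P using Polynomial.induction_on' with
  | add p q hp hq => rw [mul_add, map_add, hp, hq, add_zero]
  | monomial m c =>
    have : qpoly * monomial m c =
        monomial (m + 2) c - monomial (m + 1) (56 * c) + monomial m (800 * c) := by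
      rw [qpoly, add_mul, sub_mul, mul_assoc, C_mul_monomial, X_mul_monomial, C_mul_monomial,
        pow_two, mul_assoc, X_mul_monomial, X_mul_monomial]
    rw [this, map_add, map_sub, phi_monomial, phi_monomial, phi_monomial]
    have e := endVal_rec ((m : ℤ) - K)
    rw [show (((m + 2 : ℕ) : ℤ) - K) = (m : ℤ) - K + 2 from by push_cast; ring,
      show (((m + 1 : ℕ) : ℤ) - K) = (m : ℤ) - K + 1 from by push_cast; ring]
    linear_combination c * e

/-- Numerator u^P Q^N in the variable v. -/
def numPoly (P N : ℕ) : ℚ[X] := upoly ^ P * qpoly ^ N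

/-- Coefficient of π. -/
def coefA (P N K : ℕ) : ℚ := phi alpha K (numPoly P N)

/-- Rational term. -/
def coefB (P N K : ℕ) : ℚ := phi beta K (numPoly P N)

/-- The linear form. -/
def linForm (P N K : ℕ) : ℝ := (coefA P N K : ℝ) * Real.pi + (coefB P N K : ℝ)

end

end Vale.Agent.P021
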