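import Vale.Agent.P021.Pins
import Mathlib.Analysis.SpecialFunctions.Pow.Real
import Mathlib.Algebra.Order.Floor.Semiring

/-!
P021 [G]: linear forms in `1, x` that are small and not too large bound the irrationality exponent.
-/

namespace Vale.Agent.P021.Criterion

open Filter Real

/-- A nonzero value of a small form at `p / q` forces `p / q` away from `x`. -/
theorem key_ineq {x t s ν : ℝ} {n : ℕ} {p A B : ℤ} {q : ℕ} (hq : 0 < q)
    (hA : |(A : ℝ)| ≤ exp (t * n)) (hL : |(A : ℝ) * x + B| ≤ exp (-s * n))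
    (hn : (q : ℝ) * exp (-s * n) ≤ 1 / 2) (hne : A * p + B * (q : ℤ) ≠ 0)
    (hx : |x - p / q| ≤ (q : ℝ) ^ (-ν)) :
    1 / 2 ≤ exp (t * n) * (q : ℝ) ^ (1 - ν) := by
  have hqR : (0 : ℝ) < q := by exact_mod_cast hq
  have hone : (1 : ℝ) ≤ |(A : ℝ) * p + (B : ℝ) * q| := by
    have h := Int.one_le_abs hne
    have : ((1 : ℤ) : ℝ) ≤ ((|A * p + B * (q : ℤ)| : ℤ) : ℝ) := by exact_mod_cast h
    simpa using this
  have hid : (A : ℝ) * p + (B : ℝ) * q = q * ((A : ℝ) * x + B) - A * (q * (x - p / q)) := by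
    field_simp
    ring
  rw [hid] at hone
  have h1 : |(q : ℝ) * ((A : ℝ) * x + B) - A * (q * (x - p / q))| ≤
      q * exp (-s * n) + exp (t * n) * (q * (q : ℝ) ^ (-ν)) := by
    refine le_trans (abs_sub _ _) ?_
    rw [abs_mul, abs_mul, abs_mul, abs_of_pos hqR]
    gcongr
  have h2 : (q : ℝ) * (q : ℝ) ^ (-ν) = (q : ℝ) ^ (1 - ν) := by
    rw [sub_eq_add_neg, rpow_add hqR, rpow_one]
  rw [h2] at h1
  linarith

/-- The criterion. -/
theorem criterion : CriterionPin := by
  intro x t s ht hs H ν hν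
  set k := ν - 1 with hk_def
  have hk : t / s < k := by rw [hk_def]; linarith
  have hk0 : 0 < k := lt_trans (div_pos ht hs) hk
  have hks : t < k * s := (div_lt_iff₀ hs).1 hk
  set ε := (k * s - t) / (2 * (k + 1)) with hε_def
  have hε0 : 0 < ε := div_pos (by linarith) (by linarith)
  have hεeq : ε * (2 * (k + 1)) = k * s - t := by
    rw [hε_def]
    exact div_mul_cancel₀ _ (by positivity)
  set s' := s - ε with hs'_def
  set t' := t + ε with ht'_def
  have hs' : 0 < s' := by rw [hs'_def]; nlinarith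
  have ht' : 0 < t' := by rw [ht'_def]; linarith
  set c := k * s' - t' with hc_def
  have hc : 0 < c := by rw [hc_def, hs'_def, ht'_def]; nlinarith
  obtain ⟨N0, hN0⟩ := eventually_atTop.1 (H ε hε0)
  set M := max (s' * N0) ((t' * (log 2 + s') + s' * log 2) / c) with hM_def
  -- denominators are bounded
  have hbound : ∀ (p : ℤ) (q : ℕ), 2 ≤ q → |x - p / q| ≤ (q : ℝ) ^ (-ν) → log q ≤ M := by
    intro p q hq hx
    by_contra hcon
    have hcon := not_le.1 hcon
    have hM1 : s' * N0 < log q := lt_of_le_of_lt (le_max_left _ _) hcon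
    have hM2 : (t' * (log 2 + s') + s' * log 2) / c < log q :=
      lt_of_le_of_lt (le_max_right _ _) hcon
    have hq0 : 0 < q := by omega
    have hqR : (0 : ℝ) < q := by exact_mod_cast hq0
    have hl2 : (0 : ℝ) < log 2 := log_pos one_lt_two
    set n := ⌈(log 2 + log q) / s'⌉₊ with hn_def
    have hlq : 0 ≤ log q := log_natCast_nonneg q
    have hn1 : (log 2 + log q) / s' ≤ n := Nat.le_ceil _
    have hn2 : (n : ℝ) < (log 2 + log q) / s' + 1 := Nat.ceil_lt_add_one (by positivity)
    rw [div_le_iff₀ hs'] at hn1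
    have hn2' : (n : ℝ) * s' < log 2 + log q + s' := by
      have := mul_lt_mul_of_pos_right hn2 hs'
      rwa [add_mul, div_mul_cancel₀ _ hs'.ne', one_mul] at this
    have hnN : N0 ≤ n := by
      have : (N0 : ℝ) * s' < n * s' := by linarith
      exact_mod_cast (lt_of_mul_lt_mul_right this hs'.le).le
    obtain ⟨A, B, hA, hL, hne⟩ := hN0 n hnN p q hq0
    have hsmall : (q : ℝ) * exp (-s' * n) ≤ 1 / 2 := by
      have : (q : ℝ) * exp (-s' * n) = exp (log q + -s' * n) := by
        rw [exp_add, exp_log hqR]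
      rw [this]
      calc exp (log q + -s' * n) ≤ exp (-log 2) := exp_le_exp.2 (by linarith)
        _ = 1 / 2 := by rw [exp_neg, exp_log two_pos, one_div]
    have hk1 := key_ineq hq0 hA hL hsmall hne hx
    have h12 : (1 / 2 : ℝ) = exp (-log 2) := by rw [exp_neg, exp_log two_pos, one_div]
    rw [rpow_def_of_pos hqR, ← exp_add, h12, exp_le_exp] at hk1
    have hk1' : -log 2 ≤ t' * n - log q * k := by
      have : log (q : ℝ) * (1 - ν) = -(log q * k) := by rw [hk_def]; ring
      linarith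
    have h3 : t' * (n * s') ≤ t' * (log 2 + log q + s') :=
      mul_le_mul_of_nonneg_left hn2'.le ht'.le
    have h4 : -log 2 * s' ≤ (t' * n - log q * k) * s' := mul_le_mul_of_nonneg_right hk1' hs'.le
    rw [div_lt_iff₀ hc, hc_def] at hM2
    nlinarith
  -- the set lies in a box
  set Q := ⌈exp M⌉₊ with hQ_def
  set P := ⌈(|x| + 1) * Q⌉ with hP_def
  refine ((Set.finite_Icc (-P) P).prod (Set.finite_Iic Q)).subset ?_
  rintro ⟨p, q⟩ ⟨hq, -, -, hlt⟩
  simp only at hq hlt
  have hqR : (0 : ℝ) < q := by exact_mod_cast (show 0 < q by omega)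
  have hqQ : q ≤ Q := by
    have h := hbound p q hq hlt.le
    have h' : (q : ℝ) ≤ exp M := by
      rw [← exp_log hqR]
      exact exp_le_exp.2 h
    exact_mod_cast h'.trans (Nat.le_ceil _)
  have hle1 : (q : ℝ) ^ (-ν) ≤ 1 :=
    rpow_le_one_of_one_le_of_nonpos (by exact_mod_cast (show 1 ≤ q by omega)) (by linarith)
  have hpR : |(p : ℝ)| ≤ (|x| + 1) * Q := by
    have h1 : |(p : ℝ) / q| ≤ |x| + 1 := by
      have := abs_sub_abs_le_abs_sub ((p : ℝ) / q) x
      rw [abs_sub_comm] at this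
      linarith
    rw [abs_div, abs_of_pos hqR, div_le_iff₀ hqR] at h1
    refine h1.trans ?_
    gcongr
  have hp : |p| ≤ P := by
    have : ((|p| : ℤ) : ℝ) ≤ (P : ℝ) := by
      rw [Int.cast_abs]
      exact hpR.trans (Int.le_ceil _)
    exact_mod_cast this
  exact ⟨abs_le.1 hp, hqQ⟩

end Vale.Agent.P021.Criterion
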