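import Vale.Agent.P021.DenPins
import Mathlib.Analysis.Complex.ExponentialBounds

/-!
P021 [F2]: the numerical inequality for the denominator rate.
The interval lengths are bounded from below by floors at scale 10^6; the natural-number sum is
evaluated by the kernel.
-/

namespace Vale.Agent.P021

open Finset

/-- Scale for the floors. -/
def gScale : ℕ := 10000000

/-- Upper value for `a / b`, in units of `1 / gScale`. -/
def gCeil (a b : ℕ) : ℕ := a * gScale / b + 1

/-- Lower value for the length of the k-th B interval, in units of `1 / gScale`. -/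
def gB (k : ℕ) : ℕ :=
  min (3400 * gScale / (2 * k + 1)) (5099 * gScale / (3 * k + 1 - offB k))
    - max (gCeil 5099 (3 * k + 2 - offB k)) (gCeil 6802 (4 * k + 3 + 2 * offB k))

/-- Lower value for the length of the k-th A interval, in units of `1 / gScale`. -/
def gA (k : ℕ) : ℕ :=
  min (1700 * gScale / (k + 1)) (5099 * gScale / (3 * k + 2 - offA k))
    - max (gCeil 5099 (3 * k + 3 - offA k)) (gCeil 6802 (4 * k + 5 + 2 * offA k))

theorem gain_nat : 11011520000 ≤ ∑ k ∈ range numK, (gB k + gA k) := by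
  decide +kernel

theorem gScale_pos : (0 : ℚ) < (gScale : ℕ) := by norm_num [gScale]

theorem floor_le (a b : ℕ) (_hb : 0 < b) :
    ((a * gScale / b : ℕ) : ℚ) ≤ (a : ℚ) / b * (gScale : ℕ) := by
  have h : ((a * gScale / b : ℕ) : ℚ) ≤ ((a * gScale : ℕ) : ℚ) / (b : ℚ) := Nat.cast_div_le
  calc _ ≤ _ := h
    _ = _ := by push_cast; ring

theorem le_gCeil (a b : ℕ) (hb : 0 < b) :
    (a : ℚ) / b * (gScale : ℕ) ≤ (gCeil a b : ℕ) := by
  have h1 : a * gScale < (a * gScale / b + 1) * b := by
    have := Nat.div_add_mod (a * gScale) b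
    have := Nat.mod_lt (a * gScale) hb
    nlinarith
  have h2 : ((a * gScale : ℕ) : ℚ) ≤ ((gCeil a b * b : ℕ) : ℚ) := by
    exact_mod_cast h1.le
  have hb' : (0 : ℚ) < b := by exact_mod_cast hb
  rw [div_mul_eq_mul_div, div_le_iff₀ hb']
  push_cast at h2
  exact h2

theorem sub_le_gain {lo hi : ℕ} {u v : ℚ} (hl : (lo : ℚ) ≤ v * (gScale : ℕ))
    (hh : u * (gScale : ℕ) ≤ (hi : ℚ)) :
    ((lo - hi : ℕ) : ℚ) ≤ max 0 (v - u) * (gScale : ℕ) := by
  rcases le_total hi lo with h | h
  · rw [Nat.cast_sub h]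
    have : (v - u) * (gScale : ℕ) ≤ max 0 (v - u) * (gScale : ℕ) :=
      mul_le_mul_of_nonneg_right (le_max_right _ _) gScale_pos.le
    nlinarith
  · rw [Nat.sub_eq_zero_of_le h, Nat.cast_zero]
    exact mul_nonneg (le_max_left _ _) gScale_pos.le

theorem gB_le (k : ℕ) : (gB k : ℚ) ≤ max 0 (vB k - uB k) * (gScale : ℕ) := by
  apply sub_le_gain
  · rw [vB, min_mul_of_nonneg _ _ gScale_pos.le, Nat.cast_min]
    exact min_le_min (floor_le 3400 (2 * k + 1) (by omega))
      (floor_le 5099 (3 * k + 1 - offB k) (by unfold offB; omega))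
  · rw [uB, max_mul_of_nonneg _ _ gScale_pos.le, Nat.cast_max]
    exact max_le_max (le_gCeil 5099 (3 * k + 2 - offB k) (by unfold offB; omega))
      (le_gCeil 6802 (4 * k + 3 + 2 * offB k) (by omega))

theorem gA_le (k : ℕ) : (gA k : ℚ) ≤ max 0 (vA k - uA k) * (gScale : ℕ) := by
  apply sub_le_gain
  · rw [vA, min_mul_of_nonneg _ _ gScale_pos.le, Nat.cast_min]
    exact min_le_min (floor_le 1700 (k + 1) (by omega))
      (floor_le 5099 (3 * k + 2 - offA k) (by unfold offA; omega))
  · rw [uA, max_mul_of_nonneg _ _ gScale_pos.le, Nat.cast_max]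
    exact max_le_max (le_gCeil 5099 (3 * k + 3 - offA k) (by unfold offA; omega))
      (le_gCeil 6802 (4 * k + 5 + 2 * offA k) (by omega))

theorem absentGain_lower : (1101152 / 1000 : ℚ) ≤ absentGain := by
  have hg : ((11011520000 : ℕ) : ℚ) ≤ ((∑ k ∈ range numK, (gB k + gA k) : ℕ) : ℚ) :=
    Nat.cast_le.mpr gain_nat
  have hs : ((∑ k ∈ range numK, (gB k + gA k) : ℕ) : ℚ) ≤ absentGain * (gScale : ℕ) := by
    rw [absentGain, Nat.cast_sum, Finset.sum_mul]
    refine Finset.sum_le_sum fun k _ => ?_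
    rw [Nat.cast_add, add_mul]
    exact add_le_add (gB_le k) (gA_le k)
  have h := hg.trans hs
  norm_num [gScale] at h
  linarith

/-- [F2] The rate of the denominator is at most `delta0`. -/
theorem deltaNumPin_holds : DeltaNumPin := by
  unfold DeltaNumPin
  have hg : ((1101152 / 1000 : ℚ) : ℝ) ≤ (absentGain : ℝ) := Rat.cast_le.mpr absentGain_lower
  have hl := Real.log_two_gt_d9
  norm_num [delta0, S0] at hg hl ⊢
  linarith

end Vale.Agent.P021

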