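import Vale.Agent.P021.PrimeSums
import Vale.Agent.P021.DenPins

/-!
P021 [F]: proof of PrimeSumPin from the prime number theorem.
-/

namespace Vale.Agent.P021

open Filter Finset

noncomputable section

/-- Left ends of the absent intervals; false is the B family, true the A family. -/
def absLo : ℕ × Bool → ℚ
  | (k, false) => uB k
  | (k, true) => uA k

/-- Right ends. -/
def absHi : ℕ × Bool → ℚ
  | (k, false) => vB k
  | (k, true) => vA k

/-- Position of an interval, counted from the right. -/
def absPos : ℕ × Bool → ℕ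
  | (k, false) => 2 * k
  | (k, true) => 2 * k + 1

theorem absPos_inj : Function.Injective absPos := by
  rintro ⟨k, _ | _⟩ ⟨l, _ | _⟩ h <;> simp only [absPos] at h <;> simp <;> omega

theorem absLo_ge (j : ℕ × Bool) : 3400 / ((absPos j : ℚ) + 2) ≤ absLo j := by
  obtain ⟨k, _ | _⟩ := j
  · refine le_trans ?_ (le_max_right _ _)
    have h : 3400 * (4 * k + 3 + 2 * offB k) ≤ 6802 * (2 * k + 2) := by unfold offB; omega
    have h' : ((3400 * (4 * k + 3 + 2 * offB k) : ℕ) : ℚ) ≤ ((6802 * (2 * k + 2) : ℕ) : ℚ) := by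
      exact_mod_cast h
    simp only [absPos]; push_cast at h' ⊢
    rw [div_le_div_iff₀ (by positivity) (by positivity)]
    linarith
  · refine le_trans ?_ (le_max_right _ _)
    have h : 3400 * (4 * k + 5 + 2 * offA k) ≤ 6802 * (2 * k + 3) := by unfold offA; omega
    have h' : ((3400 * (4 * k + 5 + 2 * offA k) : ℕ) : ℚ) ≤ ((6802 * (2 * k + 3) : ℕ) : ℚ) := by
      exact_mod_cast h
    simp only [absPos]; push_cast at h' ⊢
    rw [div_le_div_iff₀ (by positivity) (by positivity)]
    linarith

theorem absHi_le (j : ℕ × Bool) : absHi j ≤ 3400 / ((absPos j : ℚ) + 1) := by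
  obtain ⟨k, _ | _⟩ := j
  · refine le_trans (min_le_left _ _) (le_of_eq ?_)
    simp only [absPos]; push_cast; ring
  · refine le_trans (min_le_left _ _) ?_
    simp only [absPos]; push_cast
    rw [div_le_div_iff₀ (by positivity) (by positivity)]
    nlinarith [Nat.cast_nonneg (α := ℚ) k]

theorem absLo_nonneg (j : ℕ × Bool) : 0 ≤ absLo j :=
  le_trans (by positivity) (absLo_ge j)

theorem absHi_le_const (j : ℕ × Bool) : absHi j ≤ 3400 := by
  refine (absHi_le j).trans (div_le_self (by norm_num) ?_)
  linarith [Nat.cast_nonneg (α := ℚ) (absPos j)]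

theorem absHi_le_absLo {i j : ℕ × Bool} (h : absPos i < absPos j) : absHi j ≤ absLo i := by
  refine (absHi_le j).trans (le_trans ?_ (absLo_ge i))
  have : (absPos i : ℚ) + 1 ≤ absPos j := by exact_mod_cast h
  exact div_le_div_of_nonneg_left (by norm_num) (by positivity) (by linarith)

/-- The nonempty absent intervals. -/
def absIdx : Finset (ℕ × Bool) :=
  ((range numK) ×ˢ (univ : Finset Bool)).filter fun j => absLo j < absHi j

theorem mem_denPrimes {n p : ℕ} :
    p ∈ denPrimes n ↔ p.Prime ∧ p ≤ (4 * S0 + 2) * n + 4 ∧ 3 ≤ p ∧ p ≠ 5 := by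
  simp only [denPrimes, Finset.mem_filter, Finset.mem_Icc]
  tauto

theorem mem_absIdx {j : ℕ × Bool} : j ∈ absIdx ↔ j.1 < numK ∧ absLo j < absHi j := by
  rw [absIdx, Finset.mem_filter, Finset.mem_product, Finset.mem_range]
  simp

theorem absentGain_eq : absentGain = ∑ j ∈ absIdx, (absHi j - absLo j) := by
  rw [absIdx, Finset.sum_filter, absentGain, Finset.sum_product]
  refine Finset.sum_congr rfl fun k _ => ?_
  have e : ∀ a b : ℚ, (if a < b then b - a else 0) = max 0 (b - a) := by
    intro a b
    split_ifs with h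
    · rw [max_eq_right]; linarith
    · rw [max_eq_left]; linarith
  rw [Fintype.sum_bool, e, e]
  simp only [absLo, absHi]
  ring

attribute [local irreducible] absIdx numK

/-- [F] the prime sum. -/
theorem primeSumPin : PrimeSumPin := by
  intro ε hε
  set L : ℝ := ((4 * S0 + 2 : ℕ) : ℝ) with hL
  have hL0 : 0 ≤ L := Nat.cast_nonneg _
  have h3400 : (3400 : ℝ) ≤ L := by norm_num [hL, S0]
  obtain ⟨η, hη, hev⟩ := logSum_outside_le absIdx (fun j => (absLo j : ℝ)) (fun j => (absHi j : ℝ))
    (L := L + ε / 4) (by linarith)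
    (fun j _ => by exact_mod_cast absLo_nonneg j)
    (fun j hj => by exact_mod_cast (mem_absIdx.1 hj).2)
    (fun j _ => by
      have : (absHi j : ℝ) ≤ 3400 := by exact_mod_cast absHi_le_const j
      linarith)
    (fun i _ j _ hij => by
      rcases lt_or_gt_of_ne (absPos_inj.ne hij) with h | h
      · right; exact_mod_cast absHi_le_absLo h
      · left; exact_mod_cast absHi_le_absLo h)
    (show 0 < ε / 4 by linarith)
  have hn3 : ∀ᶠ n : ℕ in atTop, 4 ≤ ε / 4 * (n : ℝ) ∧ 3 ≤ η * (n : ℝ) :=
    ((tendsto_natCast_atTop_atTop.const_mul_atTop (show 0 < ε / 4 by linarith)).eventually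
      (eventually_ge_atTop 4)).and
      ((tendsto_natCast_atTop_atTop.const_mul_atTop hη).eventually (eventually_ge_atTop 3))
  filter_upwards [hev, hn3, log_smallPart_eventually (30 * S0) (show 0 < ε / 4 by linarith),
    eventually_ge_atTop 1] with n hout ⟨hn4, hnη⟩ hsmall hn1
  set M := 30 * S0 * n with hM
  set O := outside absIdx (fun j => (absLo j : ℝ) + η) (fun j => (absHi j : ℝ) - η) (L + ε / 4) n
    with hO
  have hlog : ∀ p : ℕ, 0 ≤ Real.log p := fun p => Real.log_natCast_nonneg p
  have key : ∀ p ∈ denPrimes n, (denExp n p : ℝ) * Real.log p ≤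
      (if p ∈ O then Real.log p else 0) +
        (if p * p ≤ M then (Nat.log p M : ℝ) * Real.log p else 0) := by
    intro p hp
    obtain ⟨hpp, hpI, -, -⟩ := mem_denPrimes.1 hp
    have h0 : 0 ≤ if p ∈ O then Real.log p else 0 := by split_ifs <;> simp [hlog p]
    by_cases hs : p * p ≤ M
    · rw [if_pos hs]
      have : denExp n p ≤ Nat.log p M := by
        rw [denExp, ← hM]; split_ifs <;> omega
      have h1 : (denExp n p : ℝ) * Real.log p ≤ (Nat.log p M : ℝ) * Real.log p :=
        mul_le_mul_of_nonneg_right (by exact_mod_cast this) (hlog p)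
      linarith
    · rw [if_neg hs, add_zero]
      by_cases ha : IsAbsent n p
      · simp only [denExp, if_pos ha, Nat.cast_zero, zero_mul]; exact h0
      have hmem : p ∈ O := by
        rw [hO, mem_outside]
        refine ⟨⟨hpp, ?_⟩, fun j hj hin => ha ⟨?_, ?_⟩⟩
        · have : (p : ℝ) ≤ ((4 * S0 + 2) * n + 4 : ℕ) := by
            exact_mod_cast hpI
          rw [hL]; push_cast at this ⊢; linarith
        · rw [pow_two, ← hM]; omega
        · have hjI := (mem_absIdx.1 hj).1
          obtain ⟨k, b⟩ := j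
          refine ⟨k, hjI, ?_⟩
          have hn0 : (0 : ℝ) < η * n := by linarith
          have q1 : (absLo (k, b) : ℝ) * n + 3 < p := by linarith [hin.1]
          have q2 : (p : ℝ) < (absHi (k, b) : ℝ) * n := by linarith [hin.2]
          have q1' : absLo (k, b) * n + 3 < (p : ℚ) := by exact_mod_cast q1
          have q2' : (p : ℚ) < absHi (k, b) * n := by exact_mod_cast q2
          cases b
          · exact Or.inl ⟨q1', q2'⟩
          · exact Or.inr ⟨q1', q2'⟩
      rw [if_pos hmem, denExp, if_neg ha, ← hM]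
      have : Nat.log p M ≤ 1 :=
        Nat.lt_succ_iff.1 (Nat.log_lt_of_lt_pow' (by norm_num) (by rw [pow_two]; omega))
      calc (Nat.log p M : ℝ) * Real.log p ≤ 1 * Real.log p :=
            mul_le_mul_of_nonneg_right (by exact_mod_cast this) (hlog p)
        _ = Real.log p := one_mul _
  refine (Finset.sum_le_sum key).trans ?_
  rw [Finset.sum_add_distrib, ← Finset.sum_filter, ← Finset.sum_filter]
  have h1 : ∑ p ∈ (denPrimes n).filter (· ∈ O), Real.log p ≤ logSum O :=
    Finset.sum_le_sum_of_subset_of_nonneg (fun p hp => (Finset.mem_filter.1 hp).2)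
      (fun p _ _ => hlog p)
  have h2 : ∑ p ∈ (denPrimes n).filter (fun p => p * p ≤ M), (Nat.log p M : ℝ) * Real.log p ≤
      Real.log (smallPart M) := by
    rw [smallPart, Nat.cast_prod, Real.log_prod (fun p hp => by
      have := (Finset.mem_filter.1 hp).2.pos
      positivity)]
    rw [Finset.sum_congr rfl (g := fun p => Real.log ((p ^ Nat.log p M : ℕ) : ℝ))
      (fun p _ => by rw [Nat.cast_pow, Real.log_pow])]
    refine Finset.sum_le_sum_of_subset_of_nonneg (fun p hp => ?_)
      (fun p _ _ => Real.log_natCast_nonneg _)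
    obtain ⟨hp1, hp2⟩ := Finset.mem_filter.1 hp
    exact Finset.mem_filter.2 ⟨Finset.mem_range.2 (Nat.lt_succ_of_le (Nat.le_sqrt.2 hp2)),
      (mem_denPrimes.1 hp1).1⟩
  have hg : ∑ j ∈ absIdx, ((absHi j : ℝ) - (absLo j : ℝ)) = (absentGain : ℝ) := by
    rw [absentGain_eq]; push_cast; rfl
  rw [hg] at hout
  have h3 := hsmall M (Nat.le_add_right _ _)
  nlinarith [mul_nonneg (show 0 ≤ ε by linarith) (Nat.cast_nonneg (α := ℝ) n)]

end

end Vale.Agent.P021
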