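import Vale.Agent.P021.DenAssembly
import Vale.Agent.P021.AdicTwoFive
import Vale.Agent.P021.DeltaNum
import Vale.Agent.P021.PrimeSumsPin

/-!
P021: DenPin from its four parts.
-/

namespace Vale.Agent.P021

theorem denPin : DenPin := denPin_of twoPin fivePin primeSumPin deltaNumPin_holds

end Vale.Agent.P021
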