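import Vale.Agent.P021.ArithLarge
import Vale.Agent.P021.DenPins

/-!
P021: the denominator bound DenPin from the sub-interfaces.
-/

namespace Vale.Agent.P021

open Filter Finset

noncomputable section

section local_parts

variable {p : ℕ} [hp : Fact p.Prime]

theorem absent_B (h7 : 3 ≤ p ∧ p ≠ 5) {n k j i : ℕ} (hi : i < 3) (hsq : 30 * S0 * n < p ^ 2)
    (hp8 : 8 ≤ p) (hj : j ≤ k)
    (h1 : 5099 * n + 3 * (3 * k + 2 - j) < p * (3 * k + 2 - j))
    (h2 : 6802 * n + 3 * (4 * k + 3 + 2 * j) < p * (4 * k + 3 + 2 * j))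
    (h3 : p * (2 * k + 1) < 3400 * n) (h4 : p * (3 * k + 1 - j) < 5099 * n) :
    coefB (expP n i) (expN n) (expK n) ∈ pInt p := by
  have ej : j * p ≤ k * p := Nat.mul_le_mul_right p hj
  have e1 : p * (3 * k + 2 - j) = 3 * (k * p) + 2 * p - j * p := by
    rw [Nat.mul_sub]; ring_nf
  have e2 : p * (4 * k + 3 + 2 * j) = 4 * (k * p) + 3 * p + 2 * (j * p) := by ring
  have e3 : p * (2 * k + 1) = 2 * (k * p) + p := by ring
  have e4 : p * (3 * k + 1 - j) = 3 * (k * p) + p - j * p := by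
    rw [Nat.mul_sub]; ring_nf
  have e5 : p * k = k * p := mul_comm _ _
  have hpp : 8 * p ≤ p ^ 2 := by rw [pow_two]; exact Nat.mul_le_mul_right p hp8
  simp only [S0] at hsq
  refine coefB_mem_absent (qa := k) (qb := 2 * k + 1) (qc := 3 * k + 2 - j)
    (fa := 1700 * n - k * p + i) (fb := 2 * (1700 * n - k * p) - p)
    (s := p * (3 * k + 2 - j) - (5099 * n + 1)) h7 ?_ ?_ ?_ ?_ ?_ ?_ ?_
  · simp only [expP, S0]; omega
  · simp only [expN, S0]; omega
  · simp only [expK, S0]; omega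
  · omega
  · intro r hr1 hr2 hd
    obtain ⟨c, hc⟩ := hd
    have b1 : p < 2 * r + 1 := by omega
    have b2 : 2 * r + 1 < 3 * p := by omega
    have b3 : 2 * r + 1 ≠ 2 * p := by omega
    rcases c with _ | _ | _ | c
    · omega
    · omega
    · omega
    · have : p * 3 ≤ p * (c + 1 + 1 + 1) := Nat.mul_le_mul_left p (by omega)
      omega
  · simp only [expP, expN, S0]; omega
  · simp only [expK, S0]; omega

theorem absent_A (h7 : 3 ≤ p ∧ p ≠ 5) {n k j i : ℕ} (hi : i < 3) (hsq : 30 * S0 * n < p ^ 2)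
    (hp8 : 8 ≤ p) (hj : j ≤ k + 1)
    (h1 : 5099 * n + 3 * (3 * k + 3 - j) < p * (3 * k + 3 - j))
    (h2 : 6802 * n + 3 * (4 * k + 5 + 2 * j) < p * (4 * k + 5 + 2 * j))
    (h3 : p * (k + 1) < 1700 * n) (h4 : p * (3 * k + 2 - j) < 5099 * n) :
    coefB (expP n i) (expN n) (expK n) ∈ pInt p := by
  have ej : j * p ≤ k * p + p :=
    (Nat.mul_le_mul_right p hj).trans (by rw [add_mul, one_mul])
  have e1 : p * (3 * k + 3 - j) = 3 * (k * p) + 3 * p - j * p := by
    rw [Nat.mul_sub]; ring_nf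
  have e2 : p * (4 * k + 5 + 2 * j) = 4 * (k * p) + 5 * p + 2 * (j * p) := by ring
  have e3 : p * (k + 1) = k * p + p := by ring
  have e4 : p * (2 * k + 2) = 2 * (k * p) + 2 * p := by ring
  have e6 : p * (3 * k + 2 - j) = 3 * (k * p) + 2 * p - j * p := by
    rw [Nat.mul_sub]; ring_nf
  have hpp : 8 * p ≤ p ^ 2 := by rw [pow_two]; exact Nat.mul_le_mul_right p hp8
  simp only [S0] at hsq
  refine coefB_mem_absent (qa := k + 1) (qb := 2 * k + 2) (qc := 3 * k + 3 - j)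
    (fa := 1700 * n - (k * p + p) + i) (fb := 2 * (1700 * n - (k * p + p)))
    (s := p * (3 * k + 3 - j) - (5099 * n + 1)) h7 ?_ ?_ ?_ ?_ ?_ ?_ ?_
  · simp only [expP, S0]; omega
  · simp only [expN, S0]; omega
  · simp only [expK, S0]; omega
  · omega
  · intro r hr1 hr2 hd
    have := Nat.le_of_dvd (by omega) hd
    omega
  · simp only [expP, expN, S0]; omega
  · simp only [expK, S0]; omega

theorem lt_of_le_div_add {a n b q : ℕ} {x : ℚ} (hb : 0 < b) (hx : (a : ℚ) / (b : ℚ) ≤ x)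
    (h : x * (n : ℚ) + 3 < (q : ℚ)) : a * n + 3 * b < q * b := by
  have hbq : (0 : ℚ) < b := by exact_mod_cast hb
  have hn0 : (0 : ℚ) ≤ n := by positivity
  have h' : (a : ℚ) / (b : ℚ) * n + 3 < q :=
    lt_of_le_of_lt (add_le_add (mul_le_mul_of_nonneg_right hx hn0) le_rfl) h
  rw [div_mul_eq_mul_div, div_add' _ _ _ hbq.ne', div_lt_iff₀ hbq] at h'
  exact_mod_cast h'

theorem lt_of_div_le {a n b q : ℕ} {x : ℚ} (hb : 0 < b) (hx : x ≤ (a : ℚ) / (b : ℚ))
    (h : (q : ℚ) < x * (n : ℚ)) : q * b < a * n := by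
  have hbq : (0 : ℚ) < b := by exact_mod_cast hb
  have hn0 : (0 : ℚ) ≤ n := by positivity
  have h' := h.trans_le (mul_le_mul_of_nonneg_right hx hn0)
  rw [div_mul_eq_mul_div, lt_div_iff₀ hbq] at h'
  exact_mod_cast h'

theorem coefB_mem_denExp (h7 : 3 ≤ p ∧ p ≠ 5) {n i : ℕ} (hi : i < 3) (hn : 1 ≤ n) :
    (p : ℚ) ^ denExp n p * coefB (expP n i) (expN n) (expK n) ∈ pInt p := by
  classical
  unfold denExp
  split_ifs with hab
  · obtain ⟨hsq, k, -, hk⟩ := hab
    have hsq' := hsq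
    simp only [S0] at hsq'
    have hp8 : 8 ≤ p := by
      by_contra hc
      push Not at hc
      have := Nat.mul_le_mul hc.le hc.le
      rw [pow_two] at hsq'
      omega
    rw [pow_zero, one_mul]
    rcases hk with ⟨hu, hv⟩ | ⟨hu, hv⟩
    · have hj : offB k ≤ k := by unfold offB; omega
      exact absent_B h7 hi hsq hp8 hj (lt_of_le_div_add (by omega) (le_max_left _ _) hu)
        (lt_of_le_div_add (by omega) (le_max_right _ _) hu)
        (lt_of_div_le (by omega) (min_le_left _ _) hv)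
        (lt_of_div_le (by omega) (min_le_right _ _) hv)
    · have hj : offA k ≤ k + 1 := by unfold offA; omega
      have hj' : offA k ≤ k := by unfold offA; omega
      exact absent_A h7 hi hsq hp8 hj (lt_of_le_div_add (by omega) (le_max_left _ _) hu)
        (lt_of_le_div_add (by omega) (le_max_right _ _) hu)
        (lt_of_div_le (by omega) (min_le_left _ _) hv)
        (lt_of_div_le (by omega) (min_le_right _ _) hv)
  · have hlt := Nat.lt_pow_succ_log_self hp.out.one_lt (30 * S0 * n)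
    simp only [S0, Nat.succ_eq_add_one] at hlt ⊢
    refine coefB_mem h7 ?_ ?_
    · simp only [expP, expN, expK, S0]; omega
    · simp only [expK, S0]; omega

theorem coefB_mem_top (h7 : 3 ≤ p ∧ p ≠ 5) {n i : ℕ} (hi : i < 3)
    (h : (4 * S0 + 2) * n + 4 < p) : coefB (expP n i) (expN n) (expK n) ∈ pInt p := by
  simp only [S0] at h
  exact coefB_mem_large h7 (by simp only [expP, expN, expK, S0]; omega)
    (by simp only [expK, S0]; omega)

end local_parts

theorem exists_int_of_forall {x : ℚ} (h : ∀ q : ℕ, q.Prime → ¬ q ∣ x.den) : ∃ z : ℤ, x = z := by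
  by_cases h1 : x.den = 1
  · exact ⟨x.num, (Rat.coe_int_num_of_den_eq_one h1).symm⟩
  · exact absurd (Nat.minFac_dvd x.den) (h _ (Nat.minFac_prime h1))

theorem denPin_of (h2 : TwoPin) (h5 : FivePin) (hS : PrimeSumPin) (hnum : DeltaNumPin) :
    DenPin := by
  intro ε hε
  filter_upwards [h2 ε hε, h5 ε hε, hS ε hε, eventually_ge_atTop 1] with n h2n h5n hSn hn
  obtain ⟨e2, he2, H2⟩ := h2n
  obtain ⟨e5, he5, H5⟩ := h5n
  set D : ℕ := ∏ p ∈ denPrimes n, p ^ denExp n p with hD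
  have hDpos : 0 < D := prod_pos fun p hp => pow_pos (mem_filter.mp hp).2.1.pos _
  refine ⟨(2 : ℚ) ^ e2 * (5 : ℚ) ^ e5 * (D : ℚ), by positivity, ?_, ?_⟩
  · have hlogD : Real.log D = ∑ p ∈ denPrimes n, (denExp n p : ℝ) * Real.log p := by
      rw [hD, Nat.cast_prod, Real.log_prod]
      · exact sum_congr rfl fun p _ => by rw [Nat.cast_pow, Real.log_pow]
      · intro p hp
        have := (mem_filter.mp hp).2.1.ne_zero
        simp [this]
    have hD0 : (0 : ℝ) < (D : ℝ) := by exact_mod_cast hDpos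
    push_cast
    rw [← Real.exp_log (by positivity : (0 : ℝ) < (2 : ℝ) ^ e2 * 5 ^ e5 * (D : ℝ)), Real.exp_le_exp,
      Real.log_mul (by positivity) hD0.ne', Real.log_mul (by positivity) (by positivity),
      Real.log_zpow, Real.log_pow, hlogD]
    have l2 : Real.log 2 ≤ 1 := by
      have := Real.log_le_sub_one_of_pos (show (0 : ℝ) < 2 by norm_num); linarith
    have l5 : Real.log 5 ≤ 4 := by
      have := Real.log_le_sub_one_of_pos (show (0 : ℝ) < 5 by norm_num); linarith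
    have l20 : 0 ≤ Real.log 2 := Real.log_nonneg (by norm_num)
    have l50 : 0 ≤ Real.log 5 := Real.log_nonneg (by norm_num)
    have hn0 : (0 : ℝ) ≤ n := Nat.cast_nonneg n
    have a1 := mul_le_mul_of_nonneg_right he2 l20
    have a2 := mul_le_mul_of_nonneg_right he5 l50
    have a3 : ε * n * Real.log 2 ≤ ε * n * 1 := mul_le_mul_of_nonneg_left l2 (by positivity)
    have a4 : ε * n * Real.log 5 ≤ ε * n * 4 := mul_le_mul_of_nonneg_left l5 (by positivity)
    have a5 := mul_le_mul_of_nonneg_right hnum hn0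
    have a6 : 0 ≤ ε * n := by positivity
    simp only [S0] at *
    push_cast at *
    nlinarith
  · intro i hi
    have key : ∀ x : ℚ, ¬ 2 ∣ ((2 : ℚ) ^ e2 * x).den → ¬ 5 ∣ ((5 : ℚ) ^ e5 * x).den →
        (∀ p : ℕ, ∀ _ : Fact p.Prime, (3 ≤ p ∧ p ≠ 5) →
          (p ∈ denPrimes n → (p : ℚ) ^ denExp n p * x ∈ pInt p) ∧
          (p ∉ denPrimes n → x ∈ pInt p)) →
        ∃ z : ℤ, (2 : ℚ) ^ e2 * (5 : ℚ) ^ e5 * (D : ℚ) * x = z := by
      intro x x2 x5 xp
      refine exists_int_of_forall fun q hq => ?_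
      have : Fact q.Prime := ⟨hq⟩
      change (2 : ℚ) ^ e2 * (5 : ℚ) ^ e5 * (D : ℚ) * x ∈ pInt q
      by_cases q2 : q = 2
      · subst q2
        rw [show (2 : ℚ) ^ e2 * (5 : ℚ) ^ e5 * (D : ℚ) * x
          = ((5 : ℚ) ^ e5 * (D : ℚ)) * ((2 : ℚ) ^ e2 * x) from by ring]
        exact mul_mem (mul_mem (pow_mem (natCast_mem _ 5) _) (natCast_mem _ _)) x2
      have h2q : ¬ q ∣ 2 := fun h => q2 ((Nat.prime_dvd_prime_iff_eq hq Nat.prime_two).mp h)
      have hz : (2 : ℚ) ^ e2 ∈ pInt q := by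
        rcases e2 with m | m
        · rw [Int.ofNat_eq_natCast, zpow_natCast]; exact pow_mem (natCast_mem _ 2) _
        · rw [zpow_negSucc, ← inv_pow]; exact pow_mem (inv_nat_mem h2q) _
      by_cases q5 : q = 5
      · subst q5
        rw [show (2 : ℚ) ^ e2 * (5 : ℚ) ^ e5 * (D : ℚ) * x
          = ((2 : ℚ) ^ e2 * (D : ℚ)) * ((5 : ℚ) ^ e5 * x) from by ring]
        exact mul_mem (mul_mem hz (natCast_mem _ _)) x5
      have h7 : 3 ≤ q ∧ q ≠ 5 := ⟨by have := hq.two_le; omega, q5⟩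
      have hx := xp q ‹_› h7
      by_cases hm : q ∈ denPrimes n
      · obtain ⟨r, hr⟩ : q ^ denExp n q ∣ D := dvd_prod_of_mem _ hm
        rw [hr, Nat.cast_mul, Nat.cast_pow, show (2 : ℚ) ^ e2 * (5 : ℚ) ^ e5
            * ((q : ℚ) ^ denExp n q * (r : ℚ)) * x
          = ((2 : ℚ) ^ e2 * (5 : ℚ) ^ e5 * (r : ℚ)) * ((q : ℚ) ^ denExp n q * x) from by ring]
        exact mul_mem (mul_mem (mul_mem hz (pow_mem (natCast_mem _ 5) _)) (natCast_mem _ _))
          (hx.1 hm)
      · exact mul_mem (mul_mem (mul_mem hz (pow_mem (natCast_mem _ 5) _)) (natCast_mem _ _))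
          (hx.2 hm)
    obtain ⟨A, hA⟩ := key _ (H2 i hi).1 (H5 i hi).1 fun p _ h7 =>
      ⟨fun _ => mul_mem (pow_mem (natCast_mem _ p) _) (coefA_mem h7 _ _ _),
        fun _ => coefA_mem h7 _ _ _⟩
    obtain ⟨B, hB⟩ := key _ (H2 i hi).2 (H5 i hi).2 fun p hp h7 =>
      ⟨fun _ => coefB_mem_denExp h7 hi hn, fun hnot => coefB_mem_top h7 hi (by
        by_contra hc
        push Not at hc
        exact hnot (mem_filter.mpr ⟨mem_Icc.mpr ⟨h7.1, hc⟩, hp.out, h7.2⟩))⟩
    exact ⟨A, B, hA, hB⟩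

end

end Vale.Agent.P021
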