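import Vale.Agent.P021.Pins
import Mathlib.Analysis.Complex.Exponential
import Mathlib.Tactic

/-!
P021: certified bound of |u|^S |Q|^(2S) / |v|^(3S-1) on the segments of the path. The polynomial
inequality on a segment is reduced to signs of integer coefficient lists.
-/

namespace Vale.Agent.P021

namespace FormCert

/-- Coefficientwise sum. -/
def ladd : List ℤ → List ℤ → List ℤ
  | [], b => b
  | a, [] => a
  | x :: a, y :: b => (x + y) :: ladd a b

/-- Scalar multiple. -/
def lsmul (k : ℤ) : List ℤ → List ℤ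
  | [] => []
  | x :: a => k * x :: lsmul k a

/-- Product of coefficient lists. -/
def lmul : List ℤ → List ℤ → List ℤ
  | [], _ => []
  | x :: a, b => ladd (lsmul x b) (0 :: lmul a b)

/-- Value of a coefficient list. -/
noncomputable def levalR : List ℤ → ℝ → ℝ
  | [], _ => 0
  | x :: a, w => x + w * levalR a w

/-- All coefficients nonnegative. -/
def nonnegB : List ℤ → Bool
  | [] => true
  | x :: a => decide (0 ≤ x) && nonnegB a

theorem levalR_ladd (a b : List ℤ) (w : ℝ) :
    levalR (ladd a b) w = levalR a w + levalR b w := by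
  induction a generalizing b with
  | nil => simp [ladd, levalR]
  | cons x a ih =>
    cases b with
    | nil => simp [ladd, levalR]
    | cons y b => simp only [ladd, levalR, ih]; push_cast; ring

theorem levalR_lsmul (k : ℤ) (a : List ℤ) (w : ℝ) :
    levalR (lsmul k a) w = k * levalR a w := by
  induction a with
  | nil => simp [lsmul, levalR]
  | cons x a ih => simp only [lsmul, levalR, ih]; push_cast; ring

theorem levalR_lmul (a b : List ℤ) (w : ℝ) :
    levalR (lmul a b) w = levalR a w * levalR b w := by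
  induction a with
  | nil => simp [lmul, levalR]
  | cons x a ih =>
    simp only [lmul, levalR, levalR_ladd, levalR_lsmul, ih]; push_cast; ring

theorem levalR_nonneg {a : List ℤ} (h : nonnegB a = true) {w : ℝ} (hw : 0 ≤ w) :
    0 ≤ levalR a w := by
  induction a with
  | nil => simp [levalR]
  | cons x a ih =>
    simp only [nonnegB, Bool.and_eq_true, decide_eq_true_eq] at h
    have : (0 : ℝ) ≤ x := by exact_mod_cast h.1
    simp only [levalR]
    have := mul_nonneg hw (ih h.2)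
    linarith

/-- Denominator of the endpoints. -/
def den : ℤ := 10000

/-- Base point of the tangent bound for |v|^2. -/
def baseV : ℤ := 726

/-- Numerator of the bound exp(2 sigma0 + log baseV / S). -/
def numC : ℤ := 115232314

/-- Denominator of the bound. -/
def denC : ℤ := 100000

/-- D^2 (1+w)^2, as a coefficient list. -/
def segW : List ℤ := lmul [den, den] [den, den]

/-- Re u along y = ((x0,z0) + w (x1,z1)) / (den (1+w)), scaled by segW. -/
def segUr (x0 z0 x1 z1 : ℤ) : List ℤ :=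
  ladd (lmul [x0, x1] [x0, x1]) (lsmul (-1) (lmul [z0, z1] [z0, z1]))

/-- Im u on the segment, scaled by segW. -/
def segUi (x0 z0 x1 z1 : ℤ) : List ℤ := lsmul 2 (lmul [x0, x1] [z0, z1])

/-- |u|^2 on the segment, scaled. -/
def segNU (ur ui : List ℤ) : List ℤ := ladd (lmul ur ur) (lmul ui ui)

/-- |Q|^2 on the segment, scaled. -/
def segNQ (ur ui w2 : List ℤ) : List ℤ :=
  let qr := ladd (ladd (ladd (lmul ur ur) (lsmul (-1) (lmul ui ui))) (lsmul 6 (lmul ur w2)))
    (lsmul 25 (lmul w2 w2))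
  let qi := ladd (lsmul 2 (lmul ur ui)) (lsmul 6 (lmul ui w2))
  ladd (lmul qr qr) (lmul qi qi)

/-- |v|^2 on the segment, scaled. -/
def segNV (ur ui w2 : List ℤ) : List ℤ :=
  let vr := ladd (lsmul 25 w2) (lsmul (-1) ur)
  ladd (lmul vr vr) (lmul ui ui)

/-- Difference of the two sides of the inequality along the segment. -/
def segDiff (x0 z0 x1 z1 : ℤ) : List ℤ :=
  let ur := segUr x0 z0 x1 z1
  let ui := segUi x0 z0 x1 z1
  let nu := segNU ur ui
  let nq := segNQ ur ui segW
  let nv := segNV ur ui segW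
  let w4 := lmul segW segW
  let lhs := lmul (lmul nu (lmul nq nq)) (ladd (lsmul (1699 * baseV) w4) nv)
  let rhs := lmul (lmul nv (lmul nv nv)) (lmul w4 (lmul w4 w4))
  ladd (lsmul (denC * (1700 * baseV)) rhs) (lsmul (-numC) lhs)

theorem check_lo1 : nonnegB (segDiff (-10000) (-20000) (-3540) (-14301)) = true := by
  decide +kernel

theorem check_lo2 : nonnegB (segDiff (-3540) (-14301) 0 0) = true := by decide +kernel

theorem check_hi2 : nonnegB (segDiff 0 0 (-3540) 14301) = true := by decide +kernel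

theorem check_hi1 : nonnegB (segDiff (-3540) 14301 (-10000) 20000) = true := by decide +kernel

noncomputable section

/-- |u|^2 at y = x + z i. -/
def nU (x z : ℝ) : ℝ := (x ^ 2 - z ^ 2) ^ 2 + (2 * x * z) ^ 2

/-- |Q|^2 at y = x + z i. -/
def nQ (x z : ℝ) : ℝ :=
  ((x ^ 2 - z ^ 2) ^ 2 - (2 * x * z) ^ 2 + 6 * (x ^ 2 - z ^ 2) + 25) ^ 2 +
    (2 * (x ^ 2 - z ^ 2) * (2 * x * z) + 6 * (2 * x * z)) ^ 2

/-- |v|^2 at y = x + z i. -/
def nV (x z : ℝ) : ℝ := (25 - (x ^ 2 - z ^ 2)) ^ 2 + (2 * x * z) ^ 2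

/-- The polynomial inequality at one point. -/
def PointIneq (x z : ℝ) : Prop :=
  (numC : ℝ) * (nU x z * nQ x z ^ 2 * ((1699 * baseV : ℤ) + nV x z)) ≤
    (denC * (1700 * baseV) : ℤ) * nV x z ^ 3

theorem segDiff_eval (x0 z0 x1 z1 : ℤ) {w : ℝ} (hw : 0 ≤ w) :
    levalR (segDiff x0 z0 x1 z1) w = ((den : ℝ) * (1 + w)) ^ 24 *
      ((denC * (1700 * baseV) : ℤ) *
          nV (((x0 : ℝ) + w * x1) / (den * (1 + w))) (((z0 : ℝ) + w * z1) / (den * (1 + w))) ^ 3 -
        (numC : ℝ) *
          (nU (((x0 : ℝ) + w * x1) / (den * (1 + w))) (((z0 : ℝ) + w * z1) / (den * (1 + w))) *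
            nQ (((x0 : ℝ) + w * x1) / (den * (1 + w))) (((z0 : ℝ) + w * z1) / (den * (1 + w))) ^ 2 *
            ((1699 * baseV : ℤ) +
              nV (((x0 : ℝ) + w * x1) / (den * (1 + w)))
                (((z0 : ℝ) + w * z1) / (den * (1 + w)))))) := by
  have hd : (den : ℝ) * (1 + w) ≠ 0 := by
    have : (den : ℝ) = 10000 := by norm_num [den]
    rw [this]; positivity
  set W := (den : ℝ) * (1 + w) with hW
  set X := ((x0 : ℝ) + w * x1) / W with hX
  set Z := ((z0 : ℝ) + w * z1) / W with hZ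
  have eW : levalR [den, den] w = W := by simp [levalR, hW]; ring
  have eX : levalR [x0, x1] w = W * X := by
    rw [hX, mul_div_cancel₀ _ hd]; simp [levalR]
  have eZ : levalR [z0, z1] w = W * Z := by
    rw [hZ, mul_div_cancel₀ _ hd]; simp [levalR]
  have eW2 : levalR segW w = W ^ 2 := by simp only [segW, levalR_lmul, eW]; ring
  have eUr : levalR (segUr x0 z0 x1 z1) w = W ^ 2 * (X ^ 2 - Z ^ 2) := by
    simp only [segUr, levalR_ladd, levalR_lsmul, levalR_lmul, eX, eZ]; push_cast; ring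
  have eUi : levalR (segUi x0 z0 x1 z1) w = W ^ 2 * (2 * X * Z) := by
    simp only [segUi, levalR_lsmul, levalR_lmul, eX, eZ]; push_cast; ring
  have eNU : levalR (segNU (segUr x0 z0 x1 z1) (segUi x0 z0 x1 z1)) w = W ^ 4 * nU X Z := by
    simp only [segNU, nU, levalR_ladd, levalR_lmul, eUr, eUi]
    generalize X ^ 2 - Z ^ 2 = a
    generalize 2 * X * Z = b
    ring
  have eNQ : levalR (segNQ (segUr x0 z0 x1 z1) (segUi x0 z0 x1 z1) segW) w = W ^ 8 * nQ X Z := by
    simp only [segNQ, nQ, levalR_ladd, levalR_lsmul, levalR_lmul, eUr, eUi, eW2]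
    generalize X ^ 2 - Z ^ 2 = a
    generalize 2 * X * Z = b
    push_cast
    ring
  have eNV : levalR (segNV (segUr x0 z0 x1 z1) (segUi x0 z0 x1 z1) segW) w = W ^ 4 * nV X Z := by
    simp only [segNV, nV, levalR_ladd, levalR_lsmul, levalR_lmul, eUr, eUi, eW2]
    generalize X ^ 2 - Z ^ 2 = a
    generalize 2 * X * Z = b
    push_cast
    ring
  simp only [segDiff, levalR_ladd, levalR_lsmul, levalR_lmul, eNU, eNQ, eNV, eW2]
  generalize nU X Z = a
  generalize nQ X Z = b
  generalize nV X Z = c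
  push_cast
  ring

theorem pointIneq_of_check {x0 z0 x1 z1 : ℤ} (h : nonnegB (segDiff x0 z0 x1 z1) = true)
    {t : ℝ} (ht : t ∈ Set.Icc (0 : ℝ) 1) :
    PointIneq (((1 - t) * x0 + t * x1) / den) (((1 - t) * z0 + t * z1) / den) := by
  have key : ∀ s ∈ Set.Ico (0 : ℝ) 1,
      PointIneq (((1 - s) * x0 + s * x1) / den) (((1 - s) * z0 + s * z1) / den) := by
    intro s hs
    have h1 : (0 : ℝ) < 1 - s := by linarith [hs.2]
    have hw : 0 ≤ s / (1 - s) := div_nonneg hs.1 h1.le
    have e := levalR_nonneg h hw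
    rw [segDiff_eval x0 z0 x1 z1 hw] at e
    have hden : (den : ℝ) = 10000 := by norm_num [den]
    have hpos : 0 < ((den : ℝ) * (1 + s / (1 - s))) ^ 24 := by rw [hden]; positivity
    have e2 := (mul_nonneg_iff_of_pos_left hpos).mp e
    have cx : ∀ a b : ℝ,
        (a + s / (1 - s) * b) / ((den : ℝ) * (1 + s / (1 - s))) =
          ((1 - s) * a + s * b) / den := by
      intro a b
      rw [hden]
      field_simp
      ring
    rw [cx, cx] at e2
    exact sub_nonneg.mp e2
  have hc : closure (Set.Ico (0 : ℝ) 1) = Set.Icc 0 1 := closure_Ico (by norm_num)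
  unfold PointIneq at key ⊢
  refine le_on_closure key ?_ ?_ (hc ▸ ht) <;> (simp only [nU, nQ, nV]; fun_prop)

theorem nV_pos_of (x z : ℝ) (hx : |x| < 5) : 0 < nV x z := by
  have h : x ^ 2 < 25 := by nlinarith [abs_lt.mp hx]
  have h2 : 0 < 25 - (x ^ 2 - z ^ 2) := by nlinarith [sq_nonneg z]
  unfold nV; positivity

theorem baseV_le_exp : (726 : ℝ) ≤ Real.exp (6588 / 1000) := by
  refine le_trans ?_ (Real.sum_le_exp_of_nonneg (by norm_num) 32)
  norm_num [Finset.sum_range_succ, Nat.factorial]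

theorem exp_le_ratio :
    Real.exp (2 * sigma0 + 6588 / 1000 / 1700) ≤ 115232314 / 100000 := by
  rw [show 2 * sigma0 + 6588 / 1000 / 1700 = ((8 : ℕ) : ℝ) * ((2 * (352283 / 100000 : ℝ) +
    6588 / 1000 / 1700) / 8) by simp only [sigma0]; ring, Real.exp_nat_mul]
  have hb := Real.exp_bound' (x := (2 * (352283 / 100000 : ℝ) + 6588 / 1000 / 1700) / 8)
    (by norm_num) (by norm_num) (n := 16) (by norm_num)
  refine le_trans (pow_le_pow_left₀ (Real.exp_nonneg _) hb 8) ?_
  norm_num [Finset.sum_range_succ, Nat.factorial]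

/-- Abstract form of the power step. -/
theorem pow_step (S : ℕ) (hS : 1 ≤ S) (U G V V0 L r a : ℝ)
    (hU : 0 ≤ U) (_hG : 0 ≤ G) (hV : 0 < V) (hV0 : 0 < V0)
    (hL : V0 ≤ Real.exp L) (hr : Real.exp (2 * a + L / S) ≤ r)
    (h : r * (U * G ^ 2 * (((S : ℝ) - 1) * V0 + V)) ≤ (S : ℝ) * V0 * V ^ 3) :
    U ^ S * (G ^ 2) ^ S * V ≤ Real.exp (-(2 * a) * S) * (V ^ 3) ^ S := by
  have hSr : (1 : ℝ) ≤ S := by exact_mod_cast hS
  have bern : V / V0 ≤ ((((S : ℝ) - 1) * V0 + V) / (S * V0)) ^ S := by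
    have key := one_add_mul_le_pow (a := (V / V0 - 1) / S) (by
      have h0 : (-1 : ℝ) ≤ V / V0 - 1 := by
        have : 0 ≤ V / V0 := (div_pos hV hV0).le
        linarith
      rw [le_div_iff₀ (by linarith)]
      linarith) S
    have e1 : 1 + (S : ℝ) * ((V / V0 - 1) / S) = V / V0 := by field_simp; ring
    have e2 : 1 + (V / V0 - 1) / S = (((S : ℝ) - 1) * V0 + V) / (S * V0) := by field_simp; ring
    rwa [e1, e2] at key
  have hrpos : 0 < r := lt_of_lt_of_le (Real.exp_pos _) hr
  set B := (((S : ℝ) - 1) * V0 + V) / (S * V0) with hB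
  have hB0 : 0 ≤ B := div_nonneg (by nlinarith) (by nlinarith)
  have hsv : 0 < (S : ℝ) * V0 := by nlinarith
  have base : U * G ^ 2 * B ≤ V ^ 3 / r := by
    rw [hB, le_div_iff₀ hrpos, mul_div_assoc', div_mul_eq_mul_div, div_le_iff₀ hsv]
    linarith [h]
  have stepA : U ^ S * (G ^ 2) ^ S * V ≤ V0 * (V ^ 3 / r) ^ S := by
    have hvb : V ≤ V0 * B ^ S := by
      rw [div_le_iff₀ hV0] at bern; linarith [bern]
    calc U ^ S * (G ^ 2) ^ S * V ≤ U ^ S * (G ^ 2) ^ S * (V0 * B ^ S) := by gcongr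
      _ = V0 * (U * G ^ 2 * B) ^ S := by rw [mul_pow, mul_pow]; ring
      _ ≤ V0 * (V ^ 3 / r) ^ S := by gcongr
  refine le_trans stepA ?_
  rw [div_pow, mul_div_assoc', div_le_iff₀ (pow_pos hrpos S)]
  have h1 : Real.exp (2 * a * S + L) ≤ r ^ S := by
    rw [show 2 * a * S + L = (S : ℝ) * (2 * a + L / S) by field_simp, Real.exp_nat_mul]
    exact pow_le_pow_left₀ (Real.exp_nonneg _) hr S
  have h2 : V0 ≤ Real.exp (-(2 * a) * S) * r ^ S := by
    refine le_trans hL ?_
    calc Real.exp L = Real.exp (-(2 * a) * S) * Real.exp (2 * a * S + L) := by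
          rw [← Real.exp_add]; ring_nf
      _ ≤ _ := by gcongr
  calc V0 * (V ^ 3) ^ S ≤ Real.exp (-(2 * a) * S) * r ^ S * (V ^ 3) ^ S := by gcongr
    _ = _ := by ring

theorem nsq_bound {x z : ℝ} (hx : |x| < 5) (h : PointIneq x z) :
    nU x z ^ S0 * (nQ x z ^ 2) ^ S0 * nV x z ≤
      Real.exp (-(2 * sigma0) * S0) * (nV x z ^ 3) ^ S0 := by
  unfold PointIneq at h
  simp only [numC, denC, baseV] at h
  push_cast at h
  obtain ⟨S, hS⟩ : ∃ S : ℕ, S = S0 := ⟨S0, rfl⟩
  have hS' : (S : ℝ) = 1700 := by rw [hS]; norm_num [S0]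
  rw [← hS]
  apply pow_step S (by rw [hS]; norm_num [S0]) _ _ _ 726 (6588 / 1000) (115232314 / 100000)
  · unfold nU; positivity
  · unfold nQ; positivity
  · exact nV_pos_of x z hx
  · norm_num
  · exact baseV_le_exp
  · rw [hS']; exact exp_le_ratio
  · rw [hS']; linarith

end

end FormCert

end Vale.Agent.P021
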