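import Vale.Agent.P021.FormPath
import Vale.Agent.P021.FormCert

/-!
P021: proof of FormPin, the decay of the linear forms.
-/

namespace Vale.Agent.P021

open Filter Complex FormCert

noncomputable section

/-- One step of the integrand, in absolute value. -/
def stepAbs (y : ℂ) : ℝ :=
  (‖y ^ 2‖ * ‖y ^ 4 + 6 * y ^ 2 + 25‖ ^ 2) ^ S0 / ‖vOf y‖ ^ (3 * S0 - 1)

theorem sq_parts (y : ℂ) :
    ‖y ^ 2‖ ^ 2 = nU y.re y.im ∧ ‖y ^ 4 + 6 * y ^ 2 + 25‖ ^ 2 = nQ y.re y.im ∧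
      ‖vOf y‖ ^ 2 = nV y.re y.im := by
  have e4 : y ^ 4 = (y ^ 2) * (y ^ 2) := by ring
  refine ⟨?_, ?_, ?_⟩ <;>
    (rw [Complex.sq_norm]; simp [Complex.normSq_apply, nU, nQ, nV, vOf, e4, pow_two]; ring)

theorem stepAbs_bound {y : ℂ} (hy : y ∈ strip) (h : PointIneq y.re y.im) :
    stepAbs y ≤ Real.exp (-sigma0 * S0) := by
  have hx : |y.re| < 5 := abs_lt.mpr ⟨hy.1, hy.2⟩
  obtain ⟨eU, eQ, eV⟩ := sq_parts y
  have b := nsq_bound hx h
  rw [← eU, ← eQ, ← eV] at b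
  unfold stepAbs
  have hv : 0 < ‖vOf y‖ := norm_pos_iff.mpr (vOf_ne_zero hy)
  generalize ‖y ^ 2‖ = U at *
  generalize hG : ‖y ^ 4 + 6 * y ^ 2 + 25‖ = G at *
  generalize ‖vOf y‖ = V at *
  obtain ⟨S, hS, hS1⟩ : ∃ S : ℕ, S = S0 ∧ 1 ≤ S := ⟨S0, rfl, by norm_num [S0]⟩
  rw [← hS] at b ⊢
  rw [div_le_iff₀ (pow_pos hv _)]
  refine le_of_pow_le_pow_left₀ two_ne_zero (by positivity) ?_
  have key : ((U * G ^ 2) ^ S) ^ 2 * V ^ 2 ≤ (Real.exp (-sigma0 * S) * V ^ (3 * S - 1)) ^ 2 * V ^ 2 := by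
    calc ((U * G ^ 2) ^ S) ^ 2 * V ^ 2 = (U ^ 2) ^ S * (((G ^ 2) ^ 2) ^ S) * V ^ 2 := by
          rw [← mul_pow (U ^ 2), ← mul_pow U, ← pow_mul, mul_comm S 2, pow_mul]
      _ ≤ Real.exp (-(2 * sigma0) * S) * ((V ^ 2) ^ 3) ^ S := b
      _ = _ := by
          rw [mul_pow, ← Real.exp_nat_mul, mul_assoc (Real.exp _), ← pow_mul, ← pow_mul, ← pow_mul,
            ← pow_add]
          congr 2
          · push_cast; ring
          · omega
  exact le_of_mul_le_mul_right key (pow_pos hv 2)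

theorem integrand_bound {y : ℂ} (hy : y ∈ strip) (hb : ‖y‖ ≤ 3) (h : PointIneq y.re y.im)
    (n i : ℕ) (hi : i < 3) :
    ‖(y ^ 2) ^ expP n i * (y ^ 4 + 6 * y ^ 2 + 25) ^ expN n / vOf y ^ expK n‖ ≤
      6 * Real.exp (-sigma0 * (S0 * n)) := by
  have hs := stepAbs_bound hy h
  have hu : ‖y ^ 2‖ ≤ 9 := by rw [norm_pow]; nlinarith [norm_nonneg y]
  have hv : 16 ≤ ‖vOf y‖ := by
    have := norm_sub_norm_le (25 : ℂ) (y ^ 2)
    simp only [Complex.norm_ofNat] at this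
    unfold vOf; linarith
  have hui : ‖y ^ 2‖ ^ i ≤ 81 := by
    interval_cases i <;> nlinarith [norm_nonneg (y ^ 2)]
  have e : ‖(y ^ 2) ^ expP n i * (y ^ 4 + 6 * y ^ 2 + 25) ^ expN n / vOf y ^ expK n‖ =
      stepAbs y ^ n * (‖y ^ 2‖ ^ i / ‖vOf y‖) := by
    rw [norm_div, norm_mul, norm_pow (y ^ 2), norm_pow (y ^ 4 + 6 * y ^ 2 + 25), norm_pow (vOf y),
      stepAbs]
    generalize ‖y ^ 2‖ = U
    generalize ‖y ^ 4 + 6 * y ^ 2 + 25‖ = G
    generalize ‖vOf y‖ = V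
    simp only [expP, expN, expK]
    generalize S0 = S
    rw [div_pow, mul_pow, mul_pow, ← pow_mul, ← pow_mul, ← pow_mul, pow_add, pow_succ]
    rw [show 2 * S * n = 2 * (S * n) by ring, pow_mul]
    ring
  rw [e]
  have h1 : stepAbs y ^ n ≤ Real.exp (-sigma0 * S0) ^ n :=
    pow_le_pow_left₀ (by unfold stepAbs; positivity) hs n
  have h2 : ‖y ^ 2‖ ^ i / ‖vOf y‖ ≤ 6 := by
    rw [div_le_iff₀ (by linarith)]; linarith
  calc stepAbs y ^ n * (‖y ^ 2‖ ^ i / ‖vOf y‖) ≤ Real.exp (-sigma0 * S0) ^ n * 6 :=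
        mul_le_mul h1 h2 (by positivity) (by positivity)
    _ = _ := by rw [← Real.exp_nat_mul]; ring_nf

theorem segInt_bound {a b c d : ℤ} (hck : nonnegB (segDiff a b c d) = true)
    (ha : |a| ≤ 10000) (hb : |b| ≤ 20000) (hc : |c| ≤ 10000) (hd : |d| ≤ 20000)
    {p q : ℂ} (hp : p = ⟨(a : ℝ) / den, (b : ℝ) / den⟩) (hq : q = ⟨(c : ℝ) / den, (d : ℝ) / den⟩)
    (hlen : ‖q - p‖ ≤ 3) (n i : ℕ) (hi : i < 3) :
    ‖segInt (fun y => (y ^ 2) ^ expP n i * (y ^ 4 + 6 * y ^ 2 + 25) ^ expN n / vOf y ^ expK n)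
      p q‖ ≤ 18 * Real.exp (-sigma0 * (S0 * n)) := by
  have hden : (den : ℝ) = 10000 := by norm_num [den]
  have main : ∀ t ∈ Set.Icc (0 : ℝ) 1,
      ‖(segPt p q t ^ 2) ^ expP n i * (segPt p q t ^ 4 + 6 * segPt p q t ^ 2 + 25) ^ expN n /
        vOf (segPt p q t) ^ expK n‖ ≤ 6 * Real.exp (-sigma0 * (S0 * n)) := by
    intro t ht
    have er : (segPt p q t).re = ((1 - t) * a + t * c) / den := by
      simp [segPt, hp, hq]; ring
    have ei : (segPt p q t).im = ((1 - t) * b + t * d) / den := by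
      simp [segPt, hp, hq]; ring
    have ha' : |(a : ℝ)| ≤ 10000 := by exact_mod_cast ha
    have hb' : |(b : ℝ)| ≤ 20000 := by exact_mod_cast hb
    have hc' : |(c : ℝ)| ≤ 10000 := by exact_mod_cast hc
    have hd' : |(d : ℝ)| ≤ 20000 := by exact_mod_cast hd
    have hr : |(segPt p q t).re| ≤ 1 := by
      rw [er, hden, abs_le]
      obtain ⟨h0, h1⟩ := ht
      obtain ⟨a1, a2⟩ := abs_le.mp ha'
      obtain ⟨c1, c2⟩ := abs_le.mp hc'
      constructor
      · rw [le_div_iff₀ (by norm_num)]; nlinarith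
      · rw [div_le_iff₀ (by norm_num)]; nlinarith
    have hm : |(segPt p q t).im| ≤ 2 := by
      rw [ei, hden, abs_le]
      obtain ⟨h0, h1⟩ := ht
      obtain ⟨a1, a2⟩ := abs_le.mp hb'
      obtain ⟨c1, c2⟩ := abs_le.mp hd'
      constructor
      · rw [le_div_iff₀ (by norm_num)]; nlinarith
      · rw [div_le_iff₀ (by norm_num)]; nlinarith
    have hnorm : ‖segPt p q t‖ ≤ 3 :=
      (Complex.norm_le_abs_re_add_abs_im _).trans (by linarith)
    have hstrip : segPt p q t ∈ strip := by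
      obtain ⟨r1, r2⟩ := abs_le.mp hr
      exact ⟨by linarith, by linarith⟩
    have hpt := pointIneq_of_check hck ht
    rw [← er, ← ei] at hpt
    exact integrand_bound hstrip hnorm hpt n i hi
  unfold segInt
  refine (intervalIntegral.norm_integral_le_of_norm_le_const
    (C := 18 * Real.exp (-sigma0 * (S0 * n))) fun t ht => ?_).trans (by simp)
  rw [Set.uIoc_of_le zero_le_one] at ht
  rw [norm_mul]
  calc _ ≤ 6 * Real.exp (-sigma0 * (S0 * n)) * 3 :=
        mul_le_mul (main t ⟨ht.1.le, ht.2⟩) hlen (norm_nonneg _) (by positivity)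
    _ = _ := by ring

theorem pathInt_bound (n i : ℕ) (hi : i < 3) :
    |linForm (expP n i) (expN n) (expK n)| ≤ 72 * Real.exp (-sigma0 * (S0 * n)) := by
  have e := congrArg (fun z : ℂ => ‖z‖) (linForm_eq_pathInt (expP n i) (expN n) (expK n))
  simp only [norm_mul, Complex.norm_I, one_mul, Complex.norm_real, Real.norm_eq_abs] at e
  rw [e, pathInt]
  have len : ∀ z : ℂ, |z.re| ≤ 1 → |z.im| ≤ 2 → ‖z‖ ≤ 3 := fun z h1 h2 =>
    (Complex.norm_le_abs_re_add_abs_im z).trans (by linarith)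
  have b1 := segInt_bound check_lo1 (by norm_num) (by norm_num) (by norm_num) (by norm_num)
    (p := ptA) (q := ptLo) (by simp [ptA, den]; norm_num) (by simp [ptLo, den]; norm_num)
    (len _ (by simp [ptA, ptLo]; norm_num) (by simp [ptA, ptLo]; norm_num)) n i hi
  have b2 := segInt_bound check_lo2 (by norm_num) (by norm_num) (by norm_num) (by norm_num)
    (p := ptLo) (q := 0) (by simp [ptLo, den]; norm_num) (by simp [Complex.ext_iff])
    (len _ (by simp [ptLo]; norm_num) (by simp [ptLo]; norm_num)) n i hi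
  have b3 := segInt_bound check_hi2 (by norm_num) (by norm_num) (by norm_num) (by norm_num)
    (p := 0) (q := ptHi) (by simp [Complex.ext_iff]) (by simp [ptHi, den]; norm_num)
    (len _ (by simp [ptHi]; norm_num) (by simp [ptHi]; norm_num)) n i hi
  have b4 := segInt_bound check_hi1 (by norm_num) (by norm_num) (by norm_num) (by norm_num)
    (p := ptHi) (q := ptB) (by simp [ptHi, den]; norm_num) (by simp [ptB, den]; norm_num)
    (len _ (by simp [ptHi, ptB]; norm_num) (by simp [ptHi, ptB]; norm_num)) n i hi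
  have n1 := norm_add_le
    (segInt (fun y => (y ^ 2) ^ expP n i * (y ^ 4 + 6 * y ^ 2 + 25) ^ expN n / vOf y ^ expK n)
      ptA ptLo)
    (segInt (fun y => (y ^ 2) ^ expP n i * (y ^ 4 + 6 * y ^ 2 + 25) ^ expN n / vOf y ^ expK n)
      ptLo 0)
  refine (norm_add_le _ _).trans ?_
  refine le_trans (add_le_add (norm_add_le _ _) le_rfl) ?_
  linarith

theorem formPin : FormPin := by
  intro ε hε
  have hS : (1 : ℝ) ≤ S0 := by norm_num [S0]
  filter_upwards [eventually_ge_atTop (⌈72 / ε⌉₊)] with n hn i hi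
  refine (pathInt_bound n i hi).trans ?_
  rw [show -(sigma0 - ε) * ((S0 : ℝ) * n) = ε * (S0 * n) + -sigma0 * (S0 * n) by ring, Real.exp_add]
  refine mul_le_mul_of_nonneg_right ?_ (Real.exp_nonneg _)
  have h1 : 72 / ε ≤ (n : ℝ) := (Nat.le_ceil _).trans (by exact_mod_cast hn)
  rw [div_le_iff₀ hε] at h1
  have h2 := Real.add_one_le_exp (ε * ((S0 : ℝ) * n))
  have h3 : ε * (n : ℝ) ≤ ε * ((S0 : ℝ) * n) := by
    have : (0 : ℝ) ≤ n := Nat.cast_nonneg n
    nlinarith [mul_nonneg (sub_nonneg.mpr hS) (mul_nonneg hε.le this)]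
  linarith

end

end Vale.Agent.P021
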