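import Vale.Agent.P021.Moment
import Mathlib.Analysis.SpecialFunctions.Complex.LogDeriv
import Mathlib.Analysis.SpecialFunctions.Trigonometric.Arctan
import Mathlib.MeasureTheory.Integral.IntervalIntegral.FundThmCalculus
import Mathlib.Analysis.Complex.RealDeriv

/-!
P021: the linear form as a contour integral over a four-segment path from -1-2i to -1+2i.
-/

namespace Vale.Agent.P021

open Polynomial MeasureTheory Complex

open scoped ComplexConjugate

noncomputable section

/-- The segment from p to q. -/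
def segPt (p q : ℂ) (t : ℝ) : ℂ := p + (t : ℂ) * (q - p)

/-- The integral along a segment. -/
def segInt (f : ℂ → ℂ) (p q : ℂ) : ℂ := ∫ t in (0 : ℝ)..1, f (segPt p q t) * (q - p)

/-- The strip avoiding the poles. -/
def strip : Set ℂ := {y | -5 < y.re ∧ y.re < 5}

/-- v = 25 - y^2. -/
def vOf (y : ℂ) : ℂ := 25 - y ^ 2

theorem segPt_mem {p q : ℂ} (hp : p ∈ strip) (hq : q ∈ strip) {t : ℝ}
    (ht : t ∈ Set.Icc (0 : ℝ) 1) : segPt p q t ∈ strip := by
  have e : (segPt p q t).re = (1 - t) * p.re + t * q.re := by simp [segPt]; ring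
  simp only [strip, Set.mem_ofPred_eq, e] at *
  obtain ⟨h0, h1⟩ := ht
  rcases h0.eq_or_lt with rfl | h0'
  · constructor <;> linarith [hp.1, hp.2]
  · constructor
    · nlinarith [mul_nonneg (sub_nonneg.mpr h1) (sub_nonneg.mpr hp.1.le),
        mul_pos h0' (sub_pos.mpr hq.1)]
    · nlinarith [mul_nonneg (sub_nonneg.mpr h1) (sub_nonneg.mpr hp.2.le),
        mul_pos h0' (sub_pos.mpr hq.2)]

theorem vOf_ne_zero {y : ℂ} (hy : y ∈ strip) : vOf y ≠ 0 := by
  intro h
  have h5 : (5 - y) * (5 + y) = 0 := by rw [← h, vOf]; ring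
  rcases mul_eq_zero.mp h5 with h' | h' <;>
    (have := congrArg Complex.re h'; simp at this; linarith [hy.1, hy.2])

theorem hasDerivAt_segPt (p q : ℂ) (t : ℝ) : HasDerivAt (segPt p q) (q - p) t := by
  have h := (((hasDerivAt_id (t : ℂ)).mul_const (q - p)).const_add p).comp_ofReal
  rw [show segPt p q = fun s : ℝ => p + (s : ℂ) * (q - p) from rfl]
  simpa using h

theorem continuous_segPt (p q : ℂ) : Continuous (segPt p q) := by unfold segPt; fun_prop

theorem segInt_ftc {F F' : ℂ → ℂ} {p q : ℂ} (hp : p ∈ strip) (hq : q ∈ strip)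
    (hF : ∀ y ∈ strip, HasDerivAt F (F' y) y) (hc : ContinuousOn F' strip) :
    segInt F' p q = F q - F p := by
  have hd : ∀ t ∈ Set.uIcc (0 : ℝ) 1,
      HasDerivAt (fun s => F (segPt p q s)) (F' (segPt p q t) * (q - p)) t := by
    intro t ht
    rw [Set.uIcc_of_le zero_le_one] at ht
    have h := HasDerivAt.comp t (hF _ (segPt_mem hp hq ht)) (hasDerivAt_segPt p q t)
    exact h
  have hi : IntervalIntegrable (fun t => F' (segPt p q t) * (q - p)) volume 0 1 := by
    refine ContinuousOn.intervalIntegrable ?_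
    rw [Set.uIcc_of_le zero_le_one]
    exact (hc.comp (continuous_segPt p q).continuousOn
      (fun t ht => segPt_mem hp hq ht)).mul continuousOn_const
  have := intervalIntegral.integral_eq_sub_of_hasDerivAt hd hi
  simpa [segInt, segPt] using this

/-- Lower saddle vertex. -/
def ptLo : ℂ := ⟨-354 / 1000, -14301 / 10000⟩

/-- Upper saddle vertex. -/
def ptHi : ℂ := ⟨-354 / 1000, 14301 / 10000⟩

/-- Start. -/
def ptA : ℂ := ⟨-1, -2⟩

/-- End. -/
def ptB : ℂ := ⟨-1, 2⟩

/-- The integral along the four-segment path. -/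
def pathInt (f : ℂ → ℂ) : ℂ :=
  segInt f ptA ptLo + segInt f ptLo 0 + segInt f 0 ptHi + segInt f ptHi ptB

theorem pts_mem : ptA ∈ strip ∧ ptLo ∈ strip ∧ (0 : ℂ) ∈ strip ∧ ptHi ∈ strip ∧ ptB ∈ strip := by
  simp only [strip, ptA, ptLo, ptHi, ptB, Set.mem_ofPred_eq, Complex.zero_re]
  norm_num

theorem pathInt_ftc {F F' : ℂ → ℂ} (hF : ∀ y ∈ strip, HasDerivAt F (F' y) y)
    (hc : ContinuousOn F' strip) : pathInt F' = F ptB - F ptA := by
  obtain ⟨hA, hL, h0, hH, hB⟩ := pts_mem
  simp only [pathInt, segInt_ftc hA hL hF hc, segInt_ftc hL h0 hF hc, segInt_ftc h0 hH hF hc,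
    segInt_ftc hH hB hF hc]
  ring

theorem continuousOn_zpow (m : ℤ) : ContinuousOn (fun y => vOf y ^ m) strip :=
  (by unfold vOf; fun_prop : Continuous vOf).continuousOn.zpow₀ m
    fun y hy => Or.inl (vOf_ne_zero hy)

theorem segInt_sum {ι : Type} (s : Finset ι) (c : ι → ℂ) (f : ι → ℂ → ℂ) {p q : ℂ}
    (hp : p ∈ strip) (hq : q ∈ strip) (hf : ∀ i ∈ s, ContinuousOn (f i) strip) :
    segInt (fun y => ∑ i ∈ s, c i * f i y) p q = ∑ i ∈ s, c i * segInt (f i) p q := by
  simp only [segInt]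
  have e : ∀ t : ℝ, (∑ i ∈ s, c i * f i (segPt p q t)) * (q - p) =
      ∑ i ∈ s, c i * (f i (segPt p q t) * (q - p)) := by
    intro t; rw [Finset.sum_mul]; exact Finset.sum_congr rfl fun i _ => mul_assoc _ _ _
  simp only [e]
  rw [intervalIntegral.integral_finsetSum]
  · exact Finset.sum_congr rfl fun i _ => intervalIntegral.integral_const_mul _ _
  · intro i hi
    refine ContinuousOn.intervalIntegrable ?_
    rw [Set.uIcc_of_le zero_le_one]
    exact continuousOn_const.mul
      (((hf i hi).comp (continuous_segPt p q).continuousOn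
        (fun t ht => segPt_mem hp hq ht)).mul continuousOn_const)

theorem pathInt_sum {ι : Type} (s : Finset ι) (c : ι → ℂ) (f : ι → ℂ → ℂ)
    (hf : ∀ i ∈ s, ContinuousOn (f i) strip) :
    pathInt (fun y => ∑ i ∈ s, c i * f i y) = ∑ i ∈ s, c i * pathInt (f i) := by
  obtain ⟨hA, hL, h0, hH, hB⟩ := pts_mem
  simp only [pathInt, segInt_sum s c f hA hL hf, segInt_sum s c f hL h0 hf,
    segInt_sum s c f h0 hH hf, segInt_sum s c f hH hB hf, mul_add, Finset.sum_add_distrib]

/-- Boundary value. -/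
def bdry (m : ℤ) : ℂ := ptB * vOf ptB ^ m - ptA * vOf ptA ^ m

theorem bdry_eq (m : ℤ) : bdry m = I * (2 * (endVal m : ℂ)) := by
  have vB : vOf ptB = 28 + 4 * I := by
    apply Complex.ext <;> simp [vOf, ptB, pow_two] <;> norm_num
  have vA : vOf ptA = 28 - 4 * I := by
    apply Complex.ext <;> simp [vOf, ptA, pow_two] <;> norm_num
  have pB : ptB = -1 + 2 * I := by apply Complex.ext <;> simp [ptB]
  have pA : ptA = -1 - 2 * I := by apply Complex.ext <;> simp [ptA]
  have nB : (28 + 4 * I : ℂ) ≠ 0 := fun h => by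
    have := congrArg Complex.re h; simp at this
  have nA : (28 - 4 * I : ℂ) ≠ 0 := fun h => by
    have := congrArg Complex.re h; simp at this
  set D : ℤ → ℂ := fun k => bdry k - I * (2 * (endVal k : ℂ)) with hD
  have rec3 : ∀ k : ℤ, D (k + 2) - 56 * D (k + 1) + 800 * D k = 0 := by
    intro k
    have e := congrArg (fun q : ℚ => (q : ℂ)) (endVal_rec k)
    push_cast at e
    simp only [hD, bdry]
    rw [vB, vA, pB, pA]
    rw [zpow_add₀ nB, zpow_add₀ nB, zpow_add₀ nA, zpow_add₀ nA]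
    simp only [zpow_one, zpow_ofNat]
    have r1 : (28 + 4 * I) ^ 2 - 56 * (28 + 4 * I) + 800 = 0 := by
      linear_combination 16 * I_sq
    have r2 : (28 - 4 * I) ^ 2 - 56 * (28 - 4 * I) + 800 = 0 := by
      linear_combination 16 * I_sq
    linear_combination (-1 + 2 * I) * (28 + 4 * I) ^ k * r1
      - (-1 - 2 * I) * (28 - 4 * I) ^ k * r2 - 2 * I * e
  have d0 : D (0 : ℕ) = 0 := by
    simp [hD, bdry, pB, pA, endVal, ePos]; ring
  have d1 : D (1 : ℕ) = 0 := by
    simp only [hD, bdry, Nat.cast_one, zpow_one]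
    rw [vB, vA, pB, pA, show (endVal 1 : ℚ) = 52 from rfl]
    push_cast; ring
  have up : ∀ n : ℕ, D n = 0 ∧ D ((n : ℤ) + 1) = 0 := by
    intro n
    induction n with
    | zero => exact ⟨d0, by simpa using d1⟩
    | succ n ih =>
      have e : ((n + 1 : ℕ) : ℤ) + 1 = (n : ℤ) + 2 := by push_cast; ring
      refine ⟨by push_cast; exact ih.2, ?_⟩
      rw [e]
      linear_combination rec3 n + 56 * ih.2 - 800 * ih.1
  have down : ∀ k : ℕ, D (-(k : ℤ)) = 0 ∧ D (-(k : ℤ) + 1) = 0 := by
    intro k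
    induction k with
    | zero => exact ⟨by simpa using d0, by simpa using d1⟩
    | succ k ih =>
      have e1 : -((k + 1 : ℕ) : ℤ) + 1 = -(k : ℤ) := by push_cast; ring
      refine ⟨?_, by rw [e1]; exact ih.1⟩
      have r := rec3 (-((k + 1 : ℕ) : ℤ))
      rw [e1, show -((k + 1 : ℕ) : ℤ) + 2 = -(k : ℤ) + 1 by push_cast; ring, ih.1, ih.2] at r
      simpa using r
  have hz : D m = 0 := by
    rcases Int.eq_nat_or_neg m with ⟨n, rfl | rfl⟩
    · exact (up n).1
    · exact (down n).1
  exact sub_eq_zero.mp hz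

/-- Moments along the path. -/
def pathMoment (m : ℤ) : ℂ := pathInt (fun y => vOf y ^ m)

theorem pathMoment_rec : RecC pathMoment (fun m => I * (2 * (endVal m : ℂ))) := by
  intro m
  show _ = I * (2 * (endVal m : ℂ))
  rw [← bdry_eq]
  have hd : ∀ y ∈ strip, HasDerivAt (fun y => y * vOf y ^ m)
      ((2 * (m : ℂ) + 1) * vOf y ^ m - 50 * (m : ℂ) * vOf y ^ (m - 1)) y := by
    intro y hy
    have hv : HasDerivAt vOf (-(2 * y)) y := by
      rw [show vOf = fun y : ℂ => 25 - y ^ 2 from rfl]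
      simpa using ((hasDerivAt_pow 2 y).const_sub 25)
    have h := (hasDerivAt_id' y).mul ((hasDerivAt_zpow m (vOf y) (Or.inl (vOf_ne_zero hy))).comp y hv)
    refine h.congr_deriv ?_
    simp only [Function.comp_apply]
    have e : vOf y ^ m = vOf y ^ (m - 1) * vOf y := by
      rw [← zpow_add_one₀ (vOf_ne_zero hy)]; ring_nf
    rw [e]; simp only [vOf]; ring
  have hc : ContinuousOn
      (fun y => (2 * (m : ℂ) + 1) * vOf y ^ m - 50 * (m : ℂ) * vOf y ^ (m - 1)) strip :=
    (continuousOn_const.mul (continuousOn_zpow m)).sub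
      (continuousOn_const.mul (continuousOn_zpow (m - 1)))
  have h := pathInt_ftc hd hc
  have lin := pathInt_sum (Finset.univ : Finset (Fin 2))
    ![2 * (m : ℂ) + 1, -(50 * (m : ℂ))] ![fun y => vOf y ^ m, fun y => vOf y ^ (m - 1)]
    (by intro i _; fin_cases i <;> simp [continuousOn_zpow])
  simp only [Fin.sum_univ_two, Matrix.cons_val_zero, Matrix.cons_val_one, neg_mul,
    ← sub_eq_add_neg] at lin
  rw [h] at lin
  exact lin.symm

theorem arg_of_re_pos {z : ℂ} (h : 0 < z.re) : z.arg = Real.arctan (z.im / z.re) := by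
  rw [← Complex.tan_arg, Real.arctan_tan]
  · exact (abs_lt.mp (Complex.abs_arg_lt_pi_div_two_iff.mpr (Or.inl h))).1
  · exact (abs_lt.mp (Complex.abs_arg_lt_pi_div_two_iff.mpr (Or.inl h))).2

theorem log_sub_log_conj {z : ℂ} (h : 0 < z.re) :
    Complex.log z - Complex.log (conj z) = 2 * I * (z.arg : ℂ) := by
  have hne : z.arg ≠ Real.pi := by
    intro e
    have := (Complex.arg_eq_pi_iff.mp e).1
    linarith
  rw [Complex.log_conj _ hne]
  apply Complex.ext <;> simp [Complex.log_im]; ring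

theorem pathMoment_neg_one : pathMoment (-1) = I * ((Real.pi : ℂ) / 20) := by
  have hd : ∀ y ∈ strip, HasDerivAt
      (fun y => 1 / 10 * (Complex.log (5 + y) - Complex.log (5 - y))) (vOf y ^ (-1 : ℤ)) y := by
    intro y hy
    have h1 : 5 + y ∈ slitPlane := Or.inl (by simp; linarith [hy.1])
    have h2 : 5 - y ∈ slitPlane := Or.inl (by simp; linarith [hy.2])
    have a := ((hasDerivAt_id' y).const_add 5).clog h1
    have b := ((hasDerivAt_id' y).const_sub 5).clog h2
    refine ((a.sub b).const_mul (1 / 10 : ℂ)).congr_deriv ?_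
    have n1 := Complex.slitPlane_ne_zero h1
    have n2 := Complex.slitPlane_ne_zero h2
    have e : vOf y = (5 + y) * (5 - y) := by rw [vOf]; ring
    rw [zpow_neg_one, e]
    field_simp
    ring
  rw [pathMoment, pathInt_ftc hd (continuousOn_zpow _)]
  have l1 := log_sub_log_conj (z := 4 + 2 * I) (by simp)
  have l2 := log_sub_log_conj (z := 6 + 2 * I) (by simp)
  have c1 : conj (4 + 2 * I) = 4 - 2 * I := by apply Complex.ext <;> simp
  have c2 : conj (6 + 2 * I) = 6 - 2 * I := by apply Complex.ext <;> simp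
  rw [c1] at l1; rw [c2] at l2
  have s : (4 + 2 * I).arg + (6 + 2 * I).arg = Real.pi / 4 := by
    rw [arg_of_re_pos (by simp), arg_of_re_pos (by simp)]
    have := Real.arctan_inv_2_add_arctan_inv_3
    convert this using 2 <;> simp <;> norm_num
  have eA1 : 5 + ptA = 4 - 2 * I := by apply Complex.ext <;> simp [ptA] <;> norm_num
  have eA2 : 5 - ptA = 6 + 2 * I := by apply Complex.ext <;> simp [ptA] <;> norm_num
  have eB1 : 5 + ptB = 4 + 2 * I := by apply Complex.ext <;> simp [ptB] <;> norm_num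
  have eB2 : 5 - ptB = 6 - 2 * I := by apply Complex.ext <;> simp [ptB] <;> norm_num
  rw [eA1, eA2, eB1, eB2]
  have s' := congrArg (fun r : ℝ => (r : ℂ)) s
  push_cast at s'
  linear_combination (1 / 10 : ℂ) * l1 + (1 / 10 : ℂ) * l2 + (I / 5) * s'

/-- The linear form is the contour integral divided by i. -/
theorem linForm_eq_pathInt (P N K : ℕ) :
    I * (linForm P N K : ℂ) =
      pathInt (fun y => (y ^ 2) ^ P * (y ^ 4 + 6 * y ^ 2 + 25) ^ N / vOf y ^ K) := by
  obtain ⟨hA, hL, h0, hH, hB⟩ := pts_mem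
  set R : ℚ[X] := numPoly P N
  have hsum : pathInt (fun y => ∑ m ∈ Finset.range (R.natDegree + 1),
      (R.coeff m : ℂ) * vOf y ^ ((m : ℤ) - K)) = I * (linForm P N K : ℂ) := by
    rw [pathInt_sum _ _ _ fun i _ => continuousOn_zpow _]
    simp only [linForm, coefA, coefB]
    push_cast
    rw [phi_cast, phi_cast, Finset.sum_mul, ← Finset.sum_add_distrib, Finset.mul_sum]
    refine Finset.sum_congr rfl fun i _ => ?_
    rw [show pathInt (fun y => vOf y ^ ((i : ℤ) - K)) = pathMoment ((i : ℤ) - K) from rfl,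
      moment_eq_alpha_beta I pathMoment_rec pathMoment_neg_one]
    ring
  rw [← hsum]
  have key : ∀ y ∈ strip, ∑ m ∈ Finset.range (R.natDegree + 1),
      (R.coeff m : ℂ) * vOf y ^ ((m : ℤ) - K) =
        (y ^ 2) ^ P * (y ^ 4 + 6 * y ^ 2 + 25) ^ N / vOf y ^ K := by
    intro y hy
    rw [eval_cast_div_pow K R (vOf_ne_zero hy), aeval_numPoly]
    congr 1
    unfold vOf; congr 2 <;> ring
  have seg : ∀ p q, p ∈ strip → q ∈ strip →
      segInt (fun y => ∑ m ∈ Finset.range (R.natDegree + 1),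
        (R.coeff m : ℂ) * vOf y ^ ((m : ℤ) - K)) p q =
      segInt (fun y => (y ^ 2) ^ P * (y ^ 4 + 6 * y ^ 2 + 25) ^ N / vOf y ^ K) p q := by
    intro p q hp hq
    refine intervalIntegral.integral_congr fun t ht => ?_
    rw [Set.uIcc_of_le zero_le_one] at ht
    simp only
    rw [key _ (segPt_mem hp hq ht)]
  simp only [pathInt, seg _ _ hA hL, seg _ _ hL h0, seg _ _ h0 hH, seg _ _ hH hB]

end

end Vale.Agent.P021
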