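import Vale.Agent.P021.Pins

/-!
P021 [D]: the three shifted forms are never all proportional.

A functional that kills the three forms kills, by the exact terms, every multiple of the numerator;
lowering the two exponents then leaves only the zero functional.
-/

namespace Vale.Agent.P021.Indep

open Polynomial

noncomputable section

/-- The moment functional `l * alpha + m * beta`. -/
def comb (l m : ℚ) : ℤ → ℚ := fun k => l * alpha k + m * beta k

theorem rec_comb (l m : ℚ) : Rec (comb l m) (fun k => m * (2 * endVal k)) := by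
  intro k
  have h1 := rec_alpha k
  have h2 := rec_beta k
  simp only [comb]
  linear_combination l * h1 + m * h2

theorem phi_const_mul (c : ℚ) (g : ℤ → ℚ) (K : ℕ) (F : ℚ[X]) :
    phi (fun k => c * g k) K F = c * phi g K F := by
  rw [phi_apply, phi_apply, Polynomial.sum_def, Polynomial.sum_def, Finset.mul_sum]
  exact Finset.sum_congr rfl fun i _ => by ring

theorem phi_comb (l m : ℚ) (K : ℕ) (F : ℚ[X]) :
    phi (comb l m) K F = l * phi alpha K F + m * phi beta K F := by
  rw [phi_apply, phi_apply, phi_apply, Polynomial.sum_def, Polynomial.sum_def, Polynomial.sum_def,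
    Finset.mul_sum, Finset.mul_sum, ← Finset.sum_add_distrib]
  exact Finset.sum_congr rfl fun i _ => by simp only [comb]; ring

/-- Exact terms with a factor `Q` are killed. -/
theorem exact_zero (l m : ℚ) (K : ℕ) (G : ℚ[X]) :
    phi (comb l m) (K + 1) (exactPoly K (qpoly * G)) = 0 := by
  rw [phi_exact (rec_comb l m), phi_const_mul m (fun k => 2 * endVal k), phi_const_mul 2 endVal,
    phi_endVal_qpoly]
  simp

theorem derivative_upoly : derivative upoly = -1 := by simp [upoly]

theorem derivative_qpoly : derivative qpoly = C 2 * X - C 56 := by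
  simp [qpoly, derivative_pow]

/-- The leading coefficient in `u` of a shifted exact term. -/
def c3 (P N K j : ℕ) : ℚ := -(2 * (P + j : ℚ) + 1) - 4 * (N + 1 : ℚ) + 2 * (K : ℚ)

theorem exact_shift (P N K j : ℕ) (hP : 1 ≤ P + j) :
    exactPoly K (qpoly * (upoly ^ (P + j) * qpoly ^ N)) =
      C (c3 P N K j) * (numPoly P N * upoly ^ (j + 3)) +
      C (19 * (2 * (P + j : ℚ) + 1) + 88 * (N + 1 : ℚ) + 12 * K) * (numPoly P N * upoly ^ (j + 2)) +
      C (125 * (2 * (P + j : ℚ) + 1) + 300 * (N + 1 : ℚ) + 50 * K) * (numPoly P N * upoly ^ (j + 1)) +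
      C (625 * (2 * (P + j : ℚ) + 1)) * (numPoly P N * upoly ^ j) := by
  obtain ⟨r, hr⟩ : ∃ r, P + j = r + 1 := ⟨P + j - 1, by omega⟩
  have hr' : (P : ℚ) + j = r + 1 := by exact_mod_cast hr
  have e : qpoly * (upoly ^ (P + j) * qpoly ^ N) = upoly ^ (r + 1) * qpoly ^ (N + 1) := by
    rw [hr, pow_succ qpoly]; ring
  rw [e, exactPoly, derivative_mul, derivative_pow, derivative_pow, derivative_upoly,
    derivative_qpoly, c3, hr', numPoly]
  have e2 : ∀ k, upoly ^ P * qpoly ^ N * upoly ^ (j + k) = upoly ^ (r + 1 + k) * qpoly ^ N := by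
    intro k
    rw [show r + 1 + k = P + (j + k) by omega, pow_add]; ring
  rw [e2 3, e2 2, e2 1, show upoly ^ P * qpoly ^ N * upoly ^ j = upoly ^ (r + 1) * qpoly ^ N by
    simpa using e2 0]
  simp only [upoly, qpoly, map_add, map_mul, map_sub, map_neg, map_natCast, map_ofNat, map_one,
    Nat.cast_add, Nat.cast_one, add_tsub_cancel_right, pow_succ]
  ring

/-- If the three forms vanish then all shifts do. -/
theorem all_shifts {l m : ℚ} {P N K : ℕ} (hP : 1 ≤ P) (hc : K < P + 2 * N)
    (h : ∀ i < 3, phi (comb l m) (K + 1) (numPoly P N * upoly ^ i) = 0) :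
    ∀ d, phi (comb l m) (K + 1) (numPoly P N * upoly ^ d) = 0 := by
  intro d
  induction d using Nat.strong_induction_on with
  | _ d ih =>
    rcases Nat.lt_or_ge d 3 with hd | hd
    · exact h d hd
    obtain ⟨j, rfl⟩ : ∃ j, d = j + 3 := ⟨d - 3, by omega⟩
    have e := exact_zero l m K (upoly ^ (P + j) * qpoly ^ N)
    rw [exact_shift P N K j (by omega)] at e
    simp only [← smul_eq_C_mul] at e
    simp only [map_add, map_smul, smul_eq_mul] at e
    rw [ih (j + 2) (by omega), ih (j + 1) (by omega), ih j (by omega)] at e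
    have hne : c3 P N K j ≠ 0 := by
      have : (K : ℚ) < P + 2 * N := by exact_mod_cast hc
      have hj : (0 : ℚ) ≤ j := by positivity
      unfold c3
      linarith
    simpa [hne] using e

/-- All multiples of the numerator are killed. -/
theorem all_multiples {l m : ℚ} {P N K : ℕ}
    (h : ∀ d, phi (comb l m) (K + 1) (numPoly P N * upoly ^ d) = 0) (w : ℚ[X]) :
    phi (comb l m) (K + 1) (upoly ^ P * qpoly ^ N * w) = 0 := by
  have key : ∀ r : ℚ[X], phi (comb l m) (K + 1) (numPoly P N * r.comp upoly) = 0 := by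
    intro r
    induction r using Polynomial.induction_on' with
    | add p q hp hq => rw [add_comp, mul_add, map_add, hp, hq, add_zero]
    | monomial n c =>
      rw [monomial_comp, mul_left_comm, ← smul_eq_C_mul, map_smul, h n, smul_zero]
  have e : upoly.comp upoly = X := by
    simp [upoly]
  have := key (w.comp upoly)
  rwa [comp_assoc, e, comp_X, numPoly] at this

/-- One factor `Q` is removed. -/
theorem lower_q {l m : ℚ} {P N K : ℕ}
    (h : ∀ w, phi (comb l m) (K + 1) (upoly ^ P * qpoly ^ (N + 1) * w) = 0) (w : ℚ[X]) :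
    phi (comb l m) (K + 1) (upoly ^ P * qpoly ^ N * w) = 0 := by
  -- a factor u * Q' * v in place of Q
  have h1 : ∀ w, phi (comb l m) (K + 1)
      (upoly ^ P * qpoly ^ N * (upoly * derivative qpoly * X * w)) = 0 := by
    intro w
    have e := exact_zero l m K (upoly ^ P * qpoly ^ N * w)
    have hid : exactPoly K (qpoly * (upoly ^ P * qpoly ^ N * w)) =
        upoly ^ P * qpoly ^ (N + 1) *
          (C (2 * (P : ℚ) + 1) * X * w - C 2 * upoly * X * derivative w +
            C (2 * (K : ℚ)) * upoly * w) -
        (2 * ((N : ℚ) + 1)) • (upoly ^ P * qpoly ^ N * (upoly * derivative qpoly * X * w)) := by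
      have eF : qpoly * (upoly ^ P * qpoly ^ N * w) = upoly ^ P * qpoly ^ (N + 1) * w := by
        rw [pow_succ qpoly]; ring
      rw [eF, exactPoly, derivative_mul, derivative_mul, derivative_pow, derivative_pow,
        derivative_upoly, smul_eq_C_mul]
      cases P with
      | zero =>
        simp only [Nat.cast_zero, map_zero, map_add, map_mul, map_natCast, map_ofNat, map_one,
          Nat.cast_add, Nat.cast_one, add_tsub_cancel_right, pow_succ, pow_zero]
        ring
      | succ P =>
        simp only [map_add, map_mul, map_natCast, map_ofNat, map_one,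
          Nat.cast_add, Nat.cast_one, add_tsub_cancel_right, pow_succ]
        ring
    rw [hid, map_sub, map_smul, h] at e
    have : (2 * ((N : ℚ) + 1)) ≠ 0 := by positivity
    simpa [this] using e
  -- the factors Q and u * Q' * v have no common root
  have hb : qpoly * ((C 64 - C 12 * upoly) * C 800 -
        (C 6 * upoly - C 14) * (upoly * derivative qpoly)) +
      upoly * derivative qpoly * X * ((C 6 * upoly - C 14) * (X - C 56)) = C (1600 * 800) := by
    rw [derivative_qpoly]
    simp only [upoly, qpoly, map_mul, map_ofNat]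
    ring
  have e1 := h (((C 64 - C 12 * upoly) * C 800 -
        (C 6 * upoly - C 14) * (upoly * derivative qpoly)) * w)
  have e2 := h1 ((C 6 * upoly - C 14) * (X - C 56) * w)
  have hsum : upoly ^ P * qpoly ^ (N + 1) * (((C 64 - C 12 * upoly) * C 800 -
        (C 6 * upoly - C 14) * (upoly * derivative qpoly)) * w) +
      upoly ^ P * qpoly ^ N *
        (upoly * derivative qpoly * X * ((C 6 * upoly - C 14) * (X - C 56) * w)) =
      (1600 * 800 : ℚ) • (upoly ^ P * qpoly ^ N * w) := by
    rw [smul_eq_C_mul, ← hb, pow_succ]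
    ring
  have := congrArg (phi (comb l m) (K + 1)) hsum
  rw [map_add, e1, e2, map_smul] at this
  simpa using this.symm

/-- One factor `u` is removed. -/
theorem lower_u {l m : ℚ} {P K : ℕ}
    (h : ∀ w, phi (comb l m) (K + 1) (upoly ^ (P + 1) * w) = 0) (w : ℚ[X]) :
    phi (comb l m) (K + 1) (upoly ^ P * w) = 0 := by
  have e := exact_zero l m K (upoly ^ P * w)
  have hid : exactPoly K (qpoly * (upoly ^ P * w)) =
      (625 * (2 * (P : ℚ) + 1)) • (upoly ^ P * w) + upoly ^ (P + 1) *
        (C (2 * (P : ℚ) + 1) * (C 125 + C 19 * upoly - upoly ^ 2) * w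
          - C 2 * X * derivative qpoly * w - C 2 * X * qpoly * derivative w
          + C (2 * (K : ℚ)) * qpoly * w) := by
    rw [exactPoly, derivative_mul, derivative_mul, derivative_pow, derivative_upoly,
      derivative_qpoly, smul_eq_C_mul]
    cases P with
    | zero =>
      simp only [upoly, qpoly, Nat.cast_zero, map_zero, map_add, map_mul, map_natCast, map_ofNat,
        map_one, pow_succ, pow_zero]
      ring
    | succ P =>
      simp only [upoly, qpoly, map_add, map_mul, map_natCast, map_ofNat, map_one,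
        Nat.cast_add, Nat.cast_one, add_tsub_cancel_right, pow_succ]
      ring
  rw [hid, map_add, map_smul, h] at e
  have : (625 * (2 * (P : ℚ) + 1)) ≠ 0 := by positivity
  simpa [this] using e

theorem no_q {l m : ℚ} {P K : ℕ} :
    ∀ N, (∀ w, phi (comb l m) (K + 1) (upoly ^ P * qpoly ^ N * w) = 0) →
      ∀ w, phi (comb l m) (K + 1) (upoly ^ P * w) = 0
  | 0, h => fun w => by simpa using h w
  | N + 1, h => no_q N (lower_q h)

theorem no_u {l m : ℚ} {K : ℕ} :
    ∀ P, (∀ w, phi (comb l m) (K + 1) (upoly ^ P * w) = 0) → ∀ w, phi (comb l m) (K + 1) w = 0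
  | 0, h => fun w => by simpa using h w
  | P + 1, h => no_u P (lower_u h)

theorem indepPin : IndepPin := by
  intro n hn l m hlm
  by_contra hcon
  push Not at hcon
  set K := (3 * S0 - 1) * n with hK
  have hS : S0 = 1700 := rfl
  have hP1 : 1 ≤ S0 * n := by rw [hS]; omega
  have hlt : K < S0 * n + 2 * (2 * S0 * n) := by rw [hK, hS]; omega
  have h3 : ∀ i < 3, phi (comb l m) (K + 1) (numPoly (S0 * n) (2 * S0 * n) * upoly ^ i) = 0 := by
    intro i hi
    have := hcon i hi
    rw [phi_comb]
    have e : numPoly (S0 * n) (2 * S0 * n) * upoly ^ i = numPoly (expP n i) (expN n) := by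
      rw [numPoly, numPoly, expP, expN, pow_add]; ring
    rw [e]
    simpa [coefA, coefB, expK, hK] using this
  have hall := no_u _ (no_q _ (all_multiples (all_shifts hP1 hlt h3)))
  have g0 := hall (monomial (K + 1) 1)
  have g1 := hall (monomial K 1)
  rw [phi_monomial] at g0 g1
  have i0 : (((K + 1 : ℕ) : ℤ) - ((K + 1 : ℕ) : ℤ)) = Int.ofNat 0 := by simp
  have i1 : ((K : ℤ) - ((K + 1 : ℕ) : ℤ)) = Int.negSucc 0 := by simp
  rw [i0] at g0
  rw [i1] at g1
  simp [comb, alpha, beta, bPos, aNeg, bNeg] at g0 g1
  subst g0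
  exact hlm ⟨g1, rfl⟩

end

end Vale.Agent.P021.Indep
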