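import Vale.Agent.P021.Assembly
import Vale.Agent.P021.Criterion
import Vale.Agent.P021.Coef
import Vale.Agent.P021.Den

/-!
P021: the exponent bound from the two analytic and algebraic inputs that enter last.
-/

namespace Vale.Agent.P021.Main

open Real

/-- The bound on the irrationality exponent of `π` from `FormPin` and `IndepPin`. -/
theorem main_of (hform : FormPin) (hindep : IndepPin) :
    (∀ ν : ℝ, 71020 / 10000 < ν → {r : ℤ × ℕ | 2 ≤ r.2 ∧ Nat.Coprime r.1.natAbs r.2 ∧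
        0 < |π - r.1 / r.2| ∧ |π - r.1 / r.2| < (r.2 : ℝ) ^ (-ν)}.Finite) ∧
      BddAbove {ν : ℝ | 0 < ν ∧ {r : ℤ × ℕ | 2 ≤ r.2 ∧ Nat.Coprime r.1.natAbs r.2 ∧
        0 < |π - r.1 / r.2| ∧ |π - r.1 / r.2| < (r.2 : ℝ) ^ (-ν)}.Infinite} ∧
      2 ≤ sSup {ν : ℝ | 0 < ν ∧ {r : ℤ × ℕ | 2 ≤ r.2 ∧ Nat.Coprime r.1.natAbs r.2 ∧
        0 < |π - r.1 / r.2| ∧ |π - r.1 / r.2| < (r.2 : ℝ) ^ (-ν)}.Infinite} ∧
      sSup {ν : ℝ | 0 < ν ∧ {r : ℤ × ℕ | 2 ≤ r.2 ∧ Nat.Coprime r.1.natAbs r.2 ∧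
        0 < |π - r.1 / r.2| ∧ |π - r.1 / r.2| < (r.2 : ℝ) ^ (-ν)}.Infinite} ≤ 71020 / 10000 ∧
      (71020 / 10000 : ℝ) < 7103205334137 / 1000000000000 :=
  Assembly.assembly Criterion.criterion Coef.coefPin hform denPin hindep

end Vale.Agent.P021.Main
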