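import Vale.Agent.P021.Core
import Mathlib.Analysis.Complex.Basic

/-!
P021: the moment recursion determines a sequence from its value at -1, and phi as a sum over
complex moments.
-/

namespace Vale.Agent.P021

open Polynomial

noncomputable section

/-- The moment recursion over ℂ. -/
def RecC (G H : ℤ → ℂ) : Prop :=
  ∀ m : ℤ, (2 * (m : ℂ) + 1) * G m - 50 * (m : ℂ) * G (m - 1) = H m

theorem recC_of_rec {g h : ℤ → ℚ} (hr : Rec g h) :
    RecC (fun m => (g m : ℂ)) (fun m => (h m : ℂ)) := by
  intro m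
  have := congrArg (fun q : ℚ => (q : ℂ)) (hr m)
  push_cast at this
  exact this

theorem RecC.add {G H G' H' : ℤ → ℂ} (h1 : RecC G H) (h2 : RecC G' H') :
    RecC (fun m => G m + G' m) (fun m => H m + H' m) := by
  intro m
  linear_combination h1 m + h2 m

theorem RecC.smul {G H : ℤ → ℂ} (c : ℂ) (h1 : RecC G H) :
    RecC (fun m => c * G m) (fun m => c * H m) := by
  intro m
  linear_combination c * h1 m

theorem moment_unique {G G' H : ℤ → ℂ} (h : RecC G H) (h' : RecC G' H)
    (e : G (-1) = G' (-1)) : G = G' := by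
  have up : ∀ n : ℕ, G n = G' n := by
    intro n
    induction n with
    | zero =>
      have a := h 0
      have b := h' 0
      simp at a b ⊢
      rw [a, b]
    | succ n ih =>
      have a := h ((n : ℤ) + 1)
      have b := h' ((n : ℤ) + 1)
      rw [add_sub_cancel_right] at a b
      push_cast at a b
      have ne : (2 * ((n : ℂ) + 1) + 1) ≠ 0 := by
        have : ((2 * (n + 1) + 1 : ℕ) : ℂ) ≠ 0 := Nat.cast_ne_zero.mpr (by omega)
        push_cast at this
        exact this
      apply mul_left_cancel₀ ne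
      push_cast
      linear_combination a - b + 50 * ((n : ℂ) + 1) * ih
  have down : ∀ k : ℕ, G (-((k : ℤ) + 1)) = G' (-((k : ℤ) + 1)) := by
    intro k
    induction k with
    | zero => simpa using e
    | succ k ih =>
      have a := h (-((k : ℤ) + 1))
      have b := h' (-((k : ℤ) + 1))
      have ee : -((k : ℤ) + 1) - 1 = -(((k + 1 : ℕ) : ℤ) + 1) := by push_cast; ring
      rw [ee] at a b
      have ne : (50 * ((k : ℂ) + 1)) ≠ 0 := by
        have : ((50 * (k + 1) : ℕ) : ℂ) ≠ 0 := Nat.cast_ne_zero.mpr (by omega)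
        push_cast at this
        exact this
      apply mul_left_cancel₀ ne
      push_cast at a b ih ⊢
      linear_combination a - b - (2 * (-((k : ℂ) + 1)) + 1) * ih
  funext m
  rcases m with n | k
  · exact up n
  · have : Int.negSucc k = -((k : ℤ) + 1) := by simp [Int.negSucc_eq]
    rw [this]; exact down k

/-- A moment sequence with zero inhomogeneity is a multiple of alpha. -/
theorem moment_eq_alpha {G : ℤ → ℂ} (h : RecC G (fun _ => 0)) (m : ℤ) :
    G m = 20 * G (-1) * (alpha m : ℂ) := by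
  have h' := (recC_of_rec rec_alpha).smul (20 * G (-1))
  simp only [Rat.cast_zero, mul_zero] at h'
  refine congrFun (moment_unique h h' ?_) m
  show G (-1) = 20 * G (-1) * (alpha (Int.negSucc 0) : ℂ)
  simp [alpha, aNeg]
  ring

theorem moment_eq_alpha_beta {G : ℤ → ℂ} (c : ℂ)
    (h : RecC G (fun m => c * (2 * (endVal m : ℂ))))
    (e : G (-1) = c * ((Real.pi : ℂ) / 20)) (m : ℤ) :
    G m = c * ((alpha m : ℂ) * (Real.pi : ℂ) + (beta m : ℂ)) := by
  have h' := (((recC_of_rec rec_alpha).smul (Real.pi : ℂ)).add (recC_of_rec rec_beta)).smul c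
  simp only [Rat.cast_zero, mul_zero, zero_add, Rat.cast_mul, Rat.cast_ofNat] at h'
  have := congrFun (moment_unique h h' (by
    show G (-1) = c * ((Real.pi : ℂ) * (alpha (Int.negSucc 0) : ℂ) + (beta (Int.negSucc 0) : ℂ))
    rw [e]
    simp [alpha, beta, aNeg, bNeg]
    left; ring)) m
  rw [this]; ring

theorem phi_cast (g : ℤ → ℚ) (K : ℕ) (P : ℚ[X]) :
    (phi g K P : ℂ) =
      ∑ m ∈ Finset.range (P.natDegree + 1), (P.coeff m : ℂ) * (g ((m : ℤ) - K) : ℂ) := by
  rw [phi_eq_sum g K P (Nat.lt_succ_self _)]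
  push_cast
  exact Finset.sum_congr rfl fun m _ => mul_comm _ _

theorem eval_cast_div_pow (K : ℕ) (P : ℚ[X]) {v : ℂ} (hv : v ≠ 0) :
    ∑ m ∈ Finset.range (P.natDegree + 1), (P.coeff m : ℂ) * v ^ ((m : ℤ) - K) =
      aeval v P / v ^ K := by
  rw [aeval_eq_sum_range, Finset.sum_div]
  refine Finset.sum_congr rfl fun m _ => ?_
  rw [zpow_sub₀ hv, zpow_natCast, zpow_natCast, Rat.smul_def, mul_div_assoc]

theorem aeval_numPoly (P N : ℕ) (v : ℂ) :
    aeval v (numPoly P N) = (25 - v) ^ P * (v ^ 2 - 56 * v + 800) ^ N := by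
  simp [numPoly, upoly, qpoly]

end

end Vale.Agent.P021
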