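import Vale.Agent.P021.Core
import Mathlib.Analysis.SpecialFunctions.Exp
import Mathlib.Order.Filter.AtTopBot.Basic

/-!
P021: fixed parameters and the interfaces between the parts of the proof.
Each `…Pin` is a proposition proved in its own file; the hand-in combines the proofs.
-/

namespace Vale.Agent.P021

open Filter

noncomputable section

/-- The scale. Exponents per step: u^S Q^(2S) / v^(3S-1). -/
def S0 : ℕ := 1700

/-- Exponent of u for shift `i`. -/
def expP (n i : ℕ) : ℕ := S0 * n + i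

/-- Exponent of Q. -/
def expN (n : ℕ) : ℕ := 2 * S0 * n

/-- Pole order. -/
def expK (n : ℕ) : ℕ := (3 * S0 - 1) * n + 1

/-- Growth rate of the coefficient of π, per unit of S. -/
def tau0 : ℝ := 9994225 / 1000000

/-- Decay rate of the linear form, per unit of S. -/
def sigma0 : ℝ := 352283 / 100000

/-- Growth rate of the common denominator, per unit of S. -/
def delta0 : ℝ := 1619555 / 1000000

/-- [E] the coefficient of π. -/
def CoefPin : Prop :=
  ∀ ε : ℝ, 0 < ε → ∀ᶠ n : ℕ in atTop, ∀ i < 3,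
    |(coefA (expP n i) (expN n) (expK n) : ℝ)| ≤ Real.exp ((tau0 + ε) * (S0 * n))

/-- [E] the linear form. -/
def FormPin : Prop :=
  ∀ ε : ℝ, 0 < ε → ∀ᶠ n : ℕ in atTop, ∀ i < 3,
    |linForm (expP n i) (expN n) (expK n)| ≤ Real.exp (-(sigma0 - ε) * (S0 * n))

/-- [B, C, F] the common denominator. -/
def DenPin : Prop :=
  ∀ ε : ℝ, 0 < ε → ∀ᶠ n : ℕ in atTop, ∃ d : ℚ, 0 < d ∧
    (d : ℝ) ≤ Real.exp ((delta0 + ε) * (S0 * n)) ∧ ∀ i < 3,
      ∃ A B : ℤ, d * coefA (expP n i) (expN n) (expK n) = A ∧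
        d * coefB (expP n i) (expN n) (expK n) = B

/-- [D] the three shifted forms are never all proportional. -/
def IndepPin : Prop :=
  ∀ n : ℕ, 1 ≤ n → ∀ l m : ℚ, ¬ (l = 0 ∧ m = 0) →
    ∃ i < 3, l * coefA (expP n i) (expN n) (expK n) + m * coefB (expP n i) (expN n) (expK n) ≠ 0

/-- [G] the criterion: linear forms in `1, x` bound the irrationality exponent by `1 + t / s`. -/
def CriterionPin : Prop :=
  ∀ (x t s : ℝ), 0 < t → 0 < s →
    (∀ ε : ℝ, 0 < ε → ∀ᶠ n : ℕ in atTop, ∀ (p : ℤ) (q : ℕ), 0 < q → ∃ A B : ℤ,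
      |(A : ℝ)| ≤ Real.exp ((t + ε) * n) ∧ |(A : ℝ) * x + B| ≤ Real.exp (-(s - ε) * n) ∧
        A * p + B * (q : ℤ) ≠ 0) →
    ∀ ν : ℝ, 1 + t / s < ν → {r : ℤ × ℕ | 2 ≤ r.2 ∧ Nat.Coprime r.1.natAbs r.2 ∧
      0 < |x - r.1 / r.2| ∧ |x - r.1 / r.2| < (r.2 : ℝ) ^ (-ν)}.Finite

end

end Vale.Agent.P021
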