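import Vale.Agent.P031.PNT
import Mathlib.NumberTheory.Chebyshev
import Mathlib.Analysis.SpecialFunctions.Pow.Asymptotics

/-!
P021 [F]: sums of log p over primes in intervals scaled by n, and the bound for a denominator
which is a product of the primes outside finitely many absent intervals times a part from small primes.
-/

namespace Vale.Agent.P021

open Filter Topology Finset Chebyshev

noncomputable section

/-- Primes p with a < p ≤ b. -/
def primesIn (a b : ℝ) : Finset ℕ := (Finset.Ioc ⌊a⌋₊ ⌊b⌋₊).filter Nat.Prime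

/-- Sum of log p. -/
def logSum (s : Finset ℕ) : ℝ := ∑ p ∈ s, Real.log p

theorem mem_primesIn {a b : ℝ} (ha : 0 ≤ a) {p : ℕ} :
    p ∈ primesIn a b ↔ p.Prime ∧ a < p ∧ (p : ℝ) ≤ b := by
  simp only [primesIn, Finset.mem_filter, Finset.mem_Ioc]
  constructor
  · rintro ⟨⟨h1, h2⟩, hp⟩
    exact ⟨hp, (Nat.floor_lt ha).1 h1, (Nat.le_floor_iff' hp.ne_zero).1 h2⟩
  · rintro ⟨hp, h1, h2⟩
    exact ⟨⟨(Nat.floor_lt ha).2 h1, (Nat.le_floor_iff' hp.ne_zero).2 h2⟩, hp⟩

theorem logSum_primesIn {a b : ℝ} (hab : a ≤ b) :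
    logSum (primesIn a b) = theta b - theta a := by
  have h : ⌊a⌋₊ ≤ ⌊b⌋₊ := Nat.floor_mono hab
  have hs : (Finset.Ioc 0 ⌊b⌋₊).filter Nat.Prime =
      (Finset.Ioc 0 ⌊a⌋₊).filter Nat.Prime ∪ primesIn a b := by
    rw [primesIn, ← Finset.filter_union, Finset.Ioc_union_Ioc_eq_Ioc (Nat.zero_le _) h]
  have hd : Disjoint ((Finset.Ioc 0 ⌊a⌋₊).filter Nat.Prime) (primesIn a b) := by
    rw [Finset.disjoint_left]
    intro p h1 h2
    simp only [primesIn, Finset.mem_filter, Finset.mem_Ioc] at h1 h2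
    omega
  rw [theta, theta, hs, Finset.sum_union hd, logSum]
  ring

theorem tendsto_theta_mul {c : ℝ} (hc : 0 ≤ c) :
    Tendsto (fun n : ℕ => theta (c * n) / n) atTop (𝓝 c) := by
  rcases hc.eq_or_lt with rfl | hc
  · simp [theta_zero]
  have h1 : Tendsto (fun x : ℝ => theta x / x) atTop (𝓝 1) := by
    refine (Asymptotics.isEquivalent_iff_tendsto_one ?_).1 Vale.Agent.P031.PNT.theta_isEquivalent
    filter_upwards [eventually_ne_atTop (0 : ℝ)] with x hx using hx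
  have h2 : Tendsto (fun n : ℕ => c * (n : ℝ)) atTop atTop :=
    tendsto_natCast_atTop_atTop.const_mul_atTop hc
  have h3 := ((h1.comp h2).const_mul c)
  rw [mul_one] at h3
  refine h3.congr' ?_
  filter_upwards [eventually_ge_atTop 1] with n hn
  have : (n : ℝ) ≠ 0 := by positivity
  simp only [Function.comp_apply]
  field_simp

theorem tendsto_logSum_primesIn {u v : ℝ} (hu : 0 ≤ u) (huv : u ≤ v) :
    Tendsto (fun n : ℕ => logSum (primesIn (u * n) (v * n)) / n) atTop (𝓝 (v - u)) := by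
  refine ((tendsto_theta_mul (hu.trans huv)).sub (tendsto_theta_mul hu)).congr fun n => ?_
  rw [logSum_primesIn (mul_le_mul_of_nonneg_right huv (Nat.cast_nonneg n)), sub_div]

/-- Primes up to L n outside all intervals (u j n, v j n]. -/
def outside {ι : Type*} (J : Finset ι) (u v : ι → ℝ) (L : ℝ) (n : ℕ) : Finset ℕ :=
  (primesIn 0 (L * n)).filter fun p : ℕ => ∀ j ∈ J, ¬ (u j * n < (p : ℝ) ∧ (p : ℝ) ≤ v j * n)

theorem mem_outside {ι : Type*} {J : Finset ι} {u v : ι → ℝ} {L : ℝ} {n p : ℕ} :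
    p ∈ outside J u v L n ↔ (p.Prime ∧ (p : ℝ) ≤ L * n) ∧
      ∀ j ∈ J, ¬ (u j * n < (p : ℝ) ∧ (p : ℝ) ≤ v j * n) := by
  rw [outside, Finset.mem_filter, mem_primesIn le_rfl]
  constructor
  · rintro ⟨⟨h1, -, h2⟩, h3⟩; exact ⟨⟨h1, h2⟩, h3⟩
  · rintro ⟨⟨h1, h2⟩, h3⟩; exact ⟨⟨h1, by exact_mod_cast h1.pos, h2⟩, h3⟩

theorem logSum_outside_eq {ι : Type*} (J : Finset ι) (u v : ι → ℝ) {L : ℝ} (n : ℕ)
    (hu : ∀ j ∈ J, 0 ≤ u j) (hvL : ∀ j ∈ J, v j ≤ L)
    (hdisj : ∀ i ∈ J, ∀ j ∈ J, i ≠ j → v i ≤ u j ∨ v j ≤ u i) :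
    logSum (outside J u v L n) =
      logSum (primesIn 0 (L * n)) - ∑ j ∈ J, logSum (primesIn (u j * n) (v j * n)) := by
  classical
  have hn : (0 : ℝ) ≤ n := Nat.cast_nonneg n
  have hU : (primesIn 0 (L * n)).filter (fun p : ℕ => ¬ ∀ j ∈ J, ¬ (u j * n < (p : ℝ) ∧ (p : ℝ) ≤ v j * n))
      = J.biUnion fun j => primesIn (u j * n) (v j * n) := by
    ext p
    simp only [Finset.mem_filter, Finset.mem_biUnion, not_forall, not_not, exists_prop]
    constructor
    · rintro ⟨hp, j, hj, h1, h2⟩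
      exact ⟨j, hj, (mem_primesIn (mul_nonneg (hu j hj) hn)).2
        ⟨((mem_primesIn le_rfl).1 hp).1, h1, h2⟩⟩
    · rintro ⟨j, hj, hp⟩
      obtain ⟨h0, h1, h2⟩ := (mem_primesIn (mul_nonneg (hu j hj) hn)).1 hp
      exact ⟨(mem_primesIn le_rfl).2 ⟨h0, by exact_mod_cast h0.pos,
        h2.trans (mul_le_mul_of_nonneg_right (hvL j hj) hn)⟩, j, hj, h1, h2⟩
  have hd : (↑J : Set ι).PairwiseDisjoint fun j => primesIn (u j * n) (v j * n) := by
    intro i hi j hj hij
    simp only [Function.onFun]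
    rw [Finset.disjoint_left]
    intro p hp hq
    obtain ⟨-, a1, a2⟩ := (mem_primesIn (mul_nonneg (hu i hi) hn)).1 hp
    obtain ⟨-, b1, b2⟩ := (mem_primesIn (mul_nonneg (hu j hj) hn)).1 hq
    rcases hdisj i hi j hj hij with h | h
    · linarith [mul_le_mul_of_nonneg_right h hn]
    · linarith [mul_le_mul_of_nonneg_right h hn]
  have hsum := Finset.sum_filter_add_sum_filter_not (primesIn 0 (L * n))
    (fun p : ℕ => ∀ j ∈ J, ¬ (u j * n < (p : ℝ) ∧ (p : ℝ) ≤ v j * n)) (fun p : ℕ => Real.log p)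
  rw [hU, Finset.sum_biUnion hd] at hsum
  simp only [logSum, outside]
  linarith

/-- The absent intervals may be shrunk by an arbitrarily small amount. -/
theorem logSum_outside_le {ι : Type*} (J : Finset ι) (u v : ι → ℝ) {L : ℝ} (hL : 0 ≤ L)
    (hu : ∀ j ∈ J, 0 ≤ u j) (huv : ∀ j ∈ J, u j < v j) (hvL : ∀ j ∈ J, v j ≤ L)
    (hdisj : ∀ i ∈ J, ∀ j ∈ J, i ≠ j → v i ≤ u j ∨ v j ≤ u i)
    {ε : ℝ} (hε : 0 < ε) :
    ∃ η : ℝ, 0 < η ∧ ∀ᶠ n : ℕ in atTop,
      logSum (outside J (fun j => u j + η) (fun j => v j - η) L n) ≤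
        (L - ∑ j ∈ J, (v j - u j) + ε) * n := by
  have e1 : ∀ᶠ η : ℝ in 𝓝[>] 0, ∀ j ∈ J, u j + η ≤ v j - η := by
    rw [Finset.eventually_all]
    intro j hj
    filter_upwards [nhdsWithin_le_nhds (Iic_mem_nhds (show (0 : ℝ) < (v j - u j) / 2 by
      linarith [huv j hj]))] with η hη
    simp only [Set.mem_Iic] at hη
    linarith
  have e2 : ∀ᶠ η : ℝ in 𝓝[>] 0, 2 * η * (J.card : ℝ) < ε / 2 := by
    refine nhdsWithin_le_nhds (Tendsto.eventually_lt_const (v := 2 * 0 * (J.card : ℝ))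
      (by simpa using half_pos hε) ?_)
    exact (((continuous_const.mul continuous_id').mul continuous_const).tendsto 0)
  obtain ⟨η, hη1, hη2, hη0⟩ := (e1.and (e2.and self_mem_nhdsWithin)).exists
  refine ⟨η, hη0, ?_⟩
  have hdisj' : ∀ i ∈ J, ∀ j ∈ J, i ≠ j → v i - η ≤ u j + η ∨ v j - η ≤ u i + η := by
    intro i hi j hj hij
    rcases hdisj i hi j hj hij with h | h
    · left; linarith
    · right; linarith
  have hu' : ∀ j ∈ J, 0 ≤ u j + η := fun j hj => by linarith [hu j hj]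
  have hv' : ∀ j ∈ J, v j - η ≤ L := fun j hj => by linarith [hvL j hj]
  have ht := (tendsto_logSum_primesIn le_rfl hL).sub
    (tendsto_finsetSum J fun j hj => tendsto_logSum_primesIn (hu' j hj) (hη1 j hj))
  have hlim : L - 0 - ∑ j ∈ J, ((v j - η) - (u j + η)) < L - ∑ j ∈ J, (v j - u j) + ε := by
    have : ∑ j ∈ J, ((v j - η) - (u j + η)) = ∑ j ∈ J, (v j - u j) - 2 * η * J.card := by
      simp only [Finset.sum_sub_distrib, Finset.sum_add_distrib, Finset.sum_const, nsmul_eq_mul]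
      ring
    rw [this]; linarith
  filter_upwards [ht.eventually_lt_const hlim, eventually_ge_atTop 1] with n hn hn1
  have hnpos : (0 : ℝ) < n := by exact_mod_cast hn1
  rw [← Finset.sum_div, ← sub_div, div_lt_iff₀ hnpos] at hn
  rw [logSum_outside_eq J _ _ n hu' hv' hdisj']
  simp only [zero_mul] at hn
  exact hn.le

/-- The part of the denominator from primes p with p * p ≤ M. -/
def smallPart (M : ℕ) : ℕ := ∏ p ∈ (Finset.range (Nat.sqrt M + 1)).filter Nat.Prime, p ^ Nat.log p M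

theorem smallPart_pos (M : ℕ) : 0 < smallPart M :=
  Finset.prod_pos fun _ hp => pow_pos (Finset.mem_filter.1 hp).2.pos _

theorem pow_dvd_smallPart {M p e : ℕ} (hp : p.Prime) (h2 : p * p ≤ M) (he : p ^ e ≤ M) :
    p ^ e ∣ smallPart M := by
  refine (pow_dvd_pow p (Nat.le_log_of_pow_le hp.one_lt he)).trans
    (Finset.dvd_prod_of_mem _ (Finset.mem_filter.2 ⟨Finset.mem_range.2 ?_, hp⟩))
  exact Nat.lt_succ_of_le (Nat.le_sqrt.2 h2)

theorem log_smallPart_le (M : ℕ) :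
    Real.log (smallPart M) ≤ ((Nat.sqrt M : ℝ) + 1) * Real.log M := by
  rcases Nat.eq_zero_or_pos M with rfl | hM
  · simp [smallPart]
  have h : smallPart M ≤ M ^ (Nat.sqrt M + 1) := by
    refine (Finset.prod_le_pow_card _ _ M fun _ _ => Nat.pow_log_le_self _ hM.ne').trans
      (Nat.pow_le_pow_right hM ?_)
    exact (Finset.card_filter_le _ _).trans (by simp)
  have h' : (smallPart M : ℝ) ≤ (M : ℝ) ^ (Nat.sqrt M + 1) := by exact_mod_cast h
  have h0 : (0 : ℝ) < smallPart M := by exact_mod_cast smallPart_pos M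
  refine (Real.log_le_log h0 h').trans (le_of_eq ?_)
  rw [Real.log_pow]; push_cast; ring

theorem log_smallPart_eventually (C : ℕ) {ε : ℝ} (hε : 0 < ε) :
    ∀ᶠ n : ℕ in atTop, ∀ M ≤ C * n + C, Real.log (smallPart M) ≤ ε * n := by
  set D : ℝ := 2 * (C : ℝ) + 2 with hD
  have hD2 : 2 ≤ D := by rw [hD]; linarith [Nat.cast_nonneg (α := ℝ) C]
  have ho : (fun x : ℝ => Real.log x) =o[atTop] fun x => x ^ (1 / 2 : ℝ) :=
    isLittleO_log_rpow_atTop (by norm_num)
  have hc : 0 < ε / (2 * D) := by positivity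
  have h1 : ∀ᶠ x : ℝ in atTop, Real.log x ≤ ε / (2 * D) * x ^ (1 / 2 : ℝ) := by
    filter_upwards [ho.def hc, eventually_ge_atTop (1 : ℝ)] with x hx hx1
    rwa [Real.norm_of_nonneg (Real.log_nonneg hx1),
      Real.norm_of_nonneg (Real.rpow_nonneg (by linarith) _)] at hx
  have h2 : Tendsto (fun n : ℕ => D * (n : ℝ)) atTop atTop :=
    tendsto_natCast_atTop_atTop.const_mul_atTop (by linarith)
  filter_upwards [h2.eventually h1, eventually_ge_atTop 1] with n hn hn1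
  have hn1' : (1 : ℝ) ≤ n := by exact_mod_cast hn1
  have hx1 : (1 : ℝ) ≤ D * n := by nlinarith
  intro M hM
  have hMle : (M : ℝ) ≤ D * n := by
    have hM' : (M : ℝ) ≤ ((C * n + C : ℕ) : ℝ) := by exact_mod_cast hM
    push_cast at hM'
    simp only [hD]; nlinarith [Nat.cast_nonneg (α := ℝ) C]
  rw [← Real.sqrt_eq_rpow] at hn
  have hlogM : Real.log (M : ℝ) ≤ Real.log (D * n) := by
    rcases Nat.eq_zero_or_pos M with h | h
    · rw [h]; simp [Real.log_nonneg hx1]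
    · exact Real.log_le_log (by exact_mod_cast h) hMle
  have hsq : (Nat.sqrt M : ℝ) ≤ Real.sqrt (D * n) :=
    Real.nat_sqrt_le_real_sqrt.trans (Real.sqrt_le_sqrt hMle)
  have hs1 : 1 ≤ Real.sqrt (D * n) := Real.one_le_sqrt.2 hx1
  calc Real.log (smallPart M) ≤ ((Nat.sqrt M : ℝ) + 1) * Real.log M := log_smallPart_le M
    _ ≤ (2 * Real.sqrt (D * n)) * (ε / (2 * D) * Real.sqrt (D * n)) :=
        mul_le_mul (by linarith) (hlogM.trans hn) (Real.log_natCast_nonneg _) (by positivity)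
    _ = ε / D * (Real.sqrt (D * n) * Real.sqrt (D * n)) := by ring_nf
    _ = ε * n := by rw [Real.mul_self_sqrt (by linarith)]; field_simp

end

end Vale.Agent.P021
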